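import Vale.Agent.P144.U.Spec

/-!
The asymptotics `n^(1/4) * Dg n → A > 0`.
-/

namespace Vale.Agent.P144

open Finset Filter Topology

/-- The ratio `Dg (n+1) / Dg n`. -/
noncomputable def rr (n : ℕ) : ℝ := 2 / Real.pi * Real.Wallis.W n

theorem Dg_succ (n : ℕ) : Dg (n + 1) = Dg n * rr n := by
  unfold Dg rr; rw [prod_range_succ]

theorem rr_pos (n : ℕ) : 0 < rr n := by
  have := Real.pi_pos
  have := Real.Wallis.W_pos n
  unfold rr; positivity

theorem Dg_pos (n : ℕ) : 0 < Dg n := by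
  induction n with
  | zero => simp [Dg]
  | succ n ih => rw [Dg_succ]; exact mul_pos ih (rr_pos n)

theorem rr_succ (n : ℕ) : rr (n + 1) = rr n * ((n + 1) ^ 2 / ((n + 1 / 2) * (n + 3 / 2))) := by
  unfold rr
  rw [Real.Wallis.W_succ]
  have h1 : (2 * (n:ℝ) + 1) ≠ 0 := by positivity
  have h3 : (2 * (n:ℝ) + 3) ≠ 0 := by positivity
  have h4 : ((n:ℝ) + 1 / 2) ≠ 0 := by positivity
  have h5 : ((n:ℝ) + 3 / 2) ≠ 0 := by positivity
  have := Real.pi_pos
  have h6 : (2 * (n:ℝ) + 2) / (2 * n + 1) * ((2 * n + 2) / (2 * n + 3)) =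
      (n + 1) ^ 2 / ((n + 1 / 2) * (n + 3 / 2)) := by
    rw [div_mul_div_comm, div_eq_div_iff (by positivity) (by positivity)]
    ring
  rw [h6]
  ring

theorem rr_lim : Tendsto rr atTop (𝓝 1) := by
  have h := Real.Wallis.tendsto_W_nhds_pi_div_two.const_mul (2 / Real.pi)
  have e : 2 / Real.pi * (Real.pi / 2) = 1 := by
    have := Real.pi_pos
    field_simp
  rw [e] at h
  exact h

theorem frac_lim (a b : ℝ) : Tendsto (fun n : ℕ => ((n:ℝ) + a) / (n + b)) atTop (𝓝 1) := by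
  have h1 : Tendsto (fun n : ℕ => (n:ℝ) + b) atTop atTop :=
    tendsto_atTop_add_const_right _ _ tendsto_natCast_atTop_atTop
  have h2 : Tendsto (fun n : ℕ => 1 + (a - b) / ((n:ℝ) + b)) atTop (𝓝 (1 + 0)) :=
    tendsto_const_nhds.add (tendsto_const_nhds.div_atTop h1)
  rw [add_zero] at h2
  refine h2.congr' ?_
  filter_upwards [h1.eventually_gt_atTop 0] with n hn
  field_simp
  ring

theorem rr_lower (n : ℕ) : (n + 1 / 4) / (n + 1 / 2) ≤ rr n := by
  set q : ℕ → ℝ := fun n => rr n * ((n + 1 / 2) / (n + 1 / 4)) with hq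
  have hanti : Antitone q := by
    refine antitone_nat_of_succ_le fun n => ?_
    simp only [hq]
    rw [rr_succ, mul_assoc]
    refine mul_le_mul_of_nonneg_left ?_ (rr_pos n).le
    push_cast
    rw [div_mul_div_comm, div_le_div_iff₀ (by positivity) (by positivity)]
    have h0 : (0:ℝ) ≤ n := by positivity
    nlinarith [mul_nonneg h0 h0, mul_nonneg (mul_nonneg h0 h0) h0]
  have hlim : Tendsto q atTop (𝓝 1) := by
    have := rr_lim.mul (frac_lim (1 / 2) (1 / 4))
    rwa [one_mul] at this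
  have h1 : 1 ≤ q n := hanti.le_of_tendsto hlim n
  simp only [hq] at h1
  rw [div_le_iff₀ (by positivity)]
  rw [mul_div_assoc', le_div_iff₀ (by positivity)] at h1
  linarith

/-- The upper comparison function. -/
noncomputable def hu (n : ℕ) : ℝ := n + 1 / 4 + 1 / (16 * n + 4)

theorem hu_eq (n : ℕ) : hu n = ((4 * n + 1) ^ 2 + 1) / (4 * (4 * n + 1)) := by
  unfold hu
  have : (4 * (n:ℝ) + 1) ≠ 0 := by positivity
  have h2 : (16 * (n:ℝ) + 4) ≠ 0 := by positivity
  field_simp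
  ring

theorem rr_upper (n : ℕ) : rr n ≤ hu n / (n + 1 / 2) := by
  have hpos : ∀ n, 0 < hu n := fun n => by unfold hu; positivity
  set q : ℕ → ℝ := fun n => rr n * ((n + 1 / 2) / hu n) with hq
  have hmono : Monotone q := by
    refine monotone_nat_of_le_succ fun n => ?_
    simp only [hq]
    rw [rr_succ, mul_assoc]
    refine mul_le_mul_of_nonneg_left ?_ (rr_pos n).le
    have h1 := hpos n
    have h2 := hpos (n + 1)
    push_cast
    rw [div_mul_div_comm, div_le_div_iff₀ h1 (by positivity)]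
    have e : (n:ℝ) + 1 + 1 / 2 = n + 3 / 2 := by ring
    rw [e]
    have key : (n + 1 / 2 : ℝ) ^ 2 * hu (n + 1) ≤ (n + 1) ^ 2 * hu n := by
      rw [hu_eq, hu_eq]
      push_cast
      rw [mul_div_assoc', mul_div_assoc', div_le_div_iff₀ (by positivity) (by positivity)]
      have h0 : (0:ℝ) ≤ n := by positivity
      rw [← sub_nonneg]
      have e2 : (n + 1 : ℝ) ^ 2 * ((4 * n + 1) ^ 2 + 1) * (4 * (4 * (n + 1) + 1)) -
          (n + 1 / 2) ^ 2 * ((4 * (n + 1) + 1) ^ 2 + 1) * (4 * (4 * n + 1)) =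
          (4 * (4 * (n:ℝ) + 1) ^ 2 + 16 * (4 * n + 1) + 36) / 4 := by ring
      rw [e2]
      positivity
    calc ((n:ℝ) + 1 / 2) * ((n + 1 / 2) * (n + 3 / 2) * hu (n + 1))
        = ((n + 1 / 2) ^ 2 * hu (n + 1)) * (n + 3 / 2) := by ring
      _ ≤ ((n + 1) ^ 2 * hu n) * (n + 3 / 2) := by gcongr
      _ = (n + 1) ^ 2 * (n + 3 / 2) * hu n := by ring
  have hlim : Tendsto q atTop (𝓝 1) := by
    have h1 : Tendsto (fun n : ℕ => ((n:ℝ) + 1 / 2) / hu n) atTop (𝓝 1) := by
      have h2 : Tendsto (fun n : ℕ => (1:ℝ) / (16 * n + 4)) atTop (𝓝 0) := by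
        refine tendsto_const_nhds.div_atTop ?_
        exact tendsto_atTop_add_const_right _ _
          (tendsto_natCast_atTop_atTop.const_mul_atTop (by norm_num))
      have h3 := frac_lim (1 / 4) (1 / 2)
      have h4 : Tendsto (fun n : ℕ => (1:ℝ) / (16 * n + 4) * (1 / (n + 1 / 2))) atTop (𝓝 (0 * 0)) := by
        refine h2.mul (tendsto_const_nhds.div_atTop ?_)
        exact tendsto_atTop_add_const_right _ _ tendsto_natCast_atTop_atTop
      have h5 := (h3.add h4).inv₀ (by norm_num)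
      simp only [mul_zero, add_zero, inv_one] at h5
      refine h5.congr fun n => ?_
      unfold hu
      have : (0:ℝ) < n + 1 / 2 := by positivity
      have : (0:ℝ) < 16 * n + 4 := by positivity
      field_simp
    have := rr_lim.mul h1
    rwa [one_mul] at this
  have h1 : q n ≤ 1 := hmono.ge_of_tendsto hlim n
  simp only [hq] at h1
  rw [le_div_iff₀ (by positivity)]
  rw [mul_div_assoc', div_le_one (hpos n)] at h1
  exact h1

/-- The asymptotics of the diagonal two-point function. -/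
theorem Dg_asymp : ∃ A > 0, Tendsto (fun n : ℕ => (n:ℝ) ^ (1 / 4 : ℝ) * Dg n) atTop (𝓝 A) := by
  set F : ℕ → ℝ := fun n => Dg (n + 1) ^ 4 * (n + 3 / 2) with hF
  set G : ℕ → ℝ := fun n => Dg (n + 1) ^ 4 * (n + 3 / 4) with hG
  have hFanti : Antitone F := by
    refine antitone_nat_of_succ_le fun n => ?_
    simp only [hF]
    rw [Dg_succ (n + 1), mul_pow, mul_assoc]
    refine mul_le_mul_of_nonneg_left ?_ (by have := Dg_pos (n + 1); positivity)
    have h1 := rr_upper (n + 1)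
    have h2 := rr_pos (n + 1)
    have h3 : rr (n + 1) ^ 4 ≤ (hu (n + 1) / ((n + 1 : ℕ) + 1 / 2)) ^ 4 := by gcongr
    have h4 : (hu (n + 1) / ((n + 1 : ℕ) + 1 / 2)) ^ 4 * ((n + 1 : ℕ) + 3 / 2) ≤ n + 3 / 2 := by
      rw [hu_eq]
      push_cast
      rw [div_div, div_pow, div_mul_eq_mul_div, div_le_iff₀ (by positivity), ← sub_nonneg]
      set v : ℝ := 4 * n with hv
      have hv0 : 0 ≤ v := by positivity
      have e : (n + 3 / 2 : ℝ) * (4 * (4 * (n + 1) + 1) * (n + 1 + 1 / 2)) ^ 4 -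
          ((4 * (n + 1) + 1) ^ 2 + 1) ^ 4 * (n + 1 + 3 / 2) =
          ((v + 5) ^ 4 * (v + 6) ^ 5 - ((v + 5) ^ 2 + 1) ^ 4 * (v + 10)) / 4 := by
        rw [hv]; ring
      rw [e]
      have e2 : (v + 5) ^ 4 * (v + 6) ^ 5 - ((v + 5) ^ 2 + 1) ^ 4 * (v + 10) =
          6 * v ^ 7 + 200 * v ^ 6 + 2849 * v ^ 5 + 22446 * v ^ 4 + 105416 * v ^ 3 + 294320 * v ^ 2
            + 450624 * v + 290240 := by ring
      rw [e2]
      positivity
    have h0 : (0:ℝ) ≤ ((n + 1 : ℕ) + 3 / 2 : ℝ) := by positivity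
    exact (mul_le_mul_of_nonneg_right h3 h0).trans h4
  have hGmono : Monotone G := by
    refine monotone_nat_of_le_succ fun n => ?_
    simp only [hG]
    rw [Dg_succ (n + 1), mul_pow, mul_assoc]
    refine mul_le_mul_of_nonneg_left ?_ (by have := Dg_pos (n + 1); positivity)
    have h1 := rr_lower (n + 1)
    have h3 : (((n + 1 : ℕ) + 1 / 4) / ((n + 1 : ℕ) + 1 / 2) : ℝ) ^ 4 ≤ rr (n + 1) ^ 4 := by gcongr
    have h4 : (n + 3 / 4 : ℝ) ≤
        (((n + 1 : ℕ) + 1 / 4) / ((n + 1 : ℕ) + 1 / 2) : ℝ) ^ 4 * ((n + 1 : ℕ) + 3 / 4) := by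
      push_cast
      rw [div_pow, div_mul_eq_mul_div, le_div_iff₀ (by positivity), ← sub_nonneg]
      have h0 : (0:ℝ) ≤ n := by positivity
      nlinarith [mul_nonneg h0 h0, mul_nonneg (mul_nonneg h0 h0) h0,
        mul_nonneg (mul_nonneg (mul_nonneg h0 h0) h0) h0]
    have h0 : (0:ℝ) ≤ ((n + 1 : ℕ) + 3 / 4 : ℝ) := by positivity
    exact h4.trans (mul_le_mul_of_nonneg_right h3 h0)
  have hGF : ∀ n, G n ≤ F n := by
    intro n
    simp only [hF, hG]
    have := Dg_pos (n + 1)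
    gcongr
    norm_num
  have hG0 : 0 < G 0 := by
    simp only [hG]
    have := Dg_pos (0 + 1)
    positivity
  have hbdd : BddBelow (Set.range F) := ⟨0, by
    rintro _ ⟨n, rfl⟩
    exact (hG0.trans_le ((hGmono (Nat.zero_le n)).trans (hGF n))).le⟩
  have hlim := tendsto_atTop_ciInf hFanti hbdd
  set L := ⨅ n, F n with hL
  have hLpos : 0 < L := hG0.trans_le (ge_of_tendsto' hlim fun n =>
    (hGmono (Nat.zero_le n)).trans (hGF n))
  have h1 : Tendsto (fun n : ℕ => (((n + 1 : ℕ) : ℝ)) * Dg (n + 1) ^ 4) atTop (𝓝 L) := by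
    have h2 := hlim.mul (frac_lim 1 (3 / 2))
    rw [mul_one] at h2
    refine h2.congr fun n => ?_
    simp only [hF]
    have : (0:ℝ) < n + 3 / 2 := by positivity
    push_cast
    field_simp
  refine ⟨L ^ (1 / 4 : ℝ), Real.rpow_pos_of_pos hLpos _, ?_⟩
  rw [← tendsto_add_atTop_iff_nat 1]
  have h3 := h1.rpow_const (p := (1 / 4 : ℝ)) (Or.inl hLpos.ne')
  refine h3.congr fun n => ?_
  have h4 := Dg_pos (n + 1)
  rw [Real.mul_rpow (by positivity) (by positivity), ← Real.rpow_natCast, ← Real.rpow_mul h4.le]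
  norm_num

end Vale.Agent.P144
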