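import Vale.Agent.P144.U.Exact

/-!
The free critical correlations in the form of Gibbs expectations and in the form with linear
weights.
-/

namespace Vale.Agent.P144

open Finset Filter Topology

theorem exp_Kc {x : ℝ} (hx : x = 1 ∨ x = -1) :
    Real.exp (Kc * x) = Real.exp Kc / (1 + tc) * (1 + 1 * tc * x) := by
  have h0 : Real.exp Kc * Real.exp Kc = 1 + √2 := by
    rw [← Real.exp_add, show Kc + Kc = Real.log (1 + √2) by unfold Kc; ring,
      Real.exp_log (by positivity)]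
  have h1 := tc_pos
  have h2 := sqrt2_sq
  have h3 : 1 + tc = √2 := by unfold tc; ring
  rcases hx with rfl | rfl
  · rw [mul_one]
    field_simp
  · rw [h3, mul_neg_one, Real.exp_neg]
    have h5 : (0:ℝ) < √2 := by positivity
    have h6 := Real.exp_pos Kc
    rw [inv_eq_one_div, div_eq_iff h6.ne']
    have : 1 + 1 * tc * -1 = 2 - √2 := by unfold tc; ring
    rw [this]
    have h7 : Real.exp Kc / √2 * (2 - √2) * Real.exp Kc = (1 + √2) * (2 - √2) / √2 := by
      rw [← h0]; field_simp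
    rw [h7, eq_div_iff h5.ne']
    linear_combination h2

theorem sub_pair {Λ : Finset Site} (u v : Site) :
    (({u, v} : Finset Site) ⊆ Λ) ↔ (u ∈ Λ ∨ v ∈ Λ) ∧ u ∈ Λ ∧ v ∈ Λ := by
  rw [Finset.insert_subset_iff, Finset.singleton_subset_iff]
  tauto

/-- The sum over the edges of `Λ`. -/
theorem edge_sum (Λ : Finset Site) (J : ℝ) (s : Site → ℝ) :
    ∑ u ∈ Λ, ∑ v ∈ Λ, cpl J 0 u v * (s u * s v) =
      2 * J * ((∑ x ∈ hor Λ, s x * s (x.1 + 1, x.2)) + ∑ x ∈ ver Λ, s x * s (x.1, x.2 + 1)) := by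
  have hc : ∀ u v : Site, cpl J 0 u v * (s u * s v) =
      (if v = (u.1 + 1, u.2) then J * (s u * s v) else 0) +
      (if u = (v.1 + 1, v.2) then J * (s u * s v) else 0) +
      (if v = (u.1, u.2 + 1) then J * (s u * s v) else 0) +
      (if u = (v.1, v.2 + 1) then J * (s u * s v) else 0) := by
    intro u v
    obtain ⟨a, b⟩ := u
    obtain ⟨c, d⟩ := v
    unfold cpl
    have hd : dsq (a, b) (c, d) = 1 ↔ (c, d) = ((a + 1, b) : Site) ∨ (a, b) = ((c + 1, d) : Site) ∨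
        (c, d) = ((a, b + 1) : Site) ∨ (a, b) = ((c, d + 1) : Site) := by
      simp only [dsq, Prod.mk.injEq]
      constructor
      · intro h
        have h1 : (a - c) ^ 2 ≤ 1 := by nlinarith [sq_nonneg (b - d)]
        have h2 : (b - d) ^ 2 ≤ 1 := by nlinarith [sq_nonneg (a - c)]
        have h3 : a - c ≤ 1 := by nlinarith
        have h4 : -1 ≤ a - c := by nlinarith
        have h5 : b - d ≤ 1 := by nlinarith
        have h6 : -1 ≤ b - d := by nlinarith
        have h7 : a - c = 0 ∨ a - c = 1 ∨ a - c = -1 := by lia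
        have h8 : b - d = 0 ∨ b - d = 1 ∨ b - d = -1 := by lia
        rcases h7 with h7 | h7 | h7 <;> rcases h8 with h8 | h8 | h8 <;> rw [h7, h8] at h <;>
          first | (exfalso; revert h; norm_num; done) | lia
      · rintro (⟨h1, h2⟩ | ⟨h1, h2⟩ | ⟨h1, h2⟩ | ⟨h1, h2⟩) <;> subst h1 <;> subst h2 <;> ring
    by_cases h : dsq (a, b) (c, d) = 1
    · rw [if_pos h]
      rcases hd.1 h with h' | h' | h' | h'
      · rw [if_pos h', if_neg, if_neg, if_neg]
        · ring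
        all_goals simp only [Prod.mk.injEq] at h' ⊢; lia
      · rw [if_neg, if_pos h', if_neg, if_neg]
        · ring
        all_goals simp only [Prod.mk.injEq] at h' ⊢; lia
      · rw [if_neg, if_neg, if_pos h', if_neg]
        · ring
        all_goals simp only [Prod.mk.injEq] at h' ⊢; lia
      · rw [if_neg, if_neg, if_neg, if_pos h']
        · ring
        all_goals simp only [Prod.mk.injEq] at h' ⊢; lia
    · rw [if_neg h]
      have h' := fun x => h (hd.2 x)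
      rw [if_neg fun x => h' (Or.inl x), if_neg fun x => h' (Or.inr (Or.inl x)),
        if_neg fun x => h' (Or.inr (Or.inr (Or.inl x))),
        if_neg fun x => h' (Or.inr (Or.inr (Or.inr x)))]
      simp
  simp only [hc, sum_add_distrib]
  have e1 : ∑ u ∈ Λ, ∑ v ∈ Λ, (if v = (u.1 + 1, u.2) then J * (s u * s v) else 0) =
      J * ∑ x ∈ hor Λ, s x * s (x.1 + 1, x.2) := by
    unfold hor
    rw [mul_sum, sum_filter]
    refine sum_congr rfl fun u _ => ?_
    rw [Finset.sum_ite_eq' Λ]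
  have e2 : ∑ u ∈ Λ, ∑ v ∈ Λ, (if u = (v.1 + 1, v.2) then J * (s u * s v) else 0) =
      J * ∑ x ∈ hor Λ, s x * s (x.1 + 1, x.2) := by
    rw [sum_comm]
    unfold hor
    rw [mul_sum, sum_filter]
    refine sum_congr rfl fun u _ => ?_
    rw [Finset.sum_ite_eq' Λ]
    split_ifs
    · ring
    · rfl
  have e3 : ∑ u ∈ Λ, ∑ v ∈ Λ, (if v = (u.1, u.2 + 1) then J * (s u * s v) else 0) =
      J * ∑ x ∈ ver Λ, s x * s (x.1, x.2 + 1) := by
    unfold ver
    rw [mul_sum, sum_filter]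
    refine sum_congr rfl fun u _ => ?_
    rw [Finset.sum_ite_eq' Λ]
  have e4 : ∑ u ∈ Λ, ∑ v ∈ Λ, (if u = (v.1, v.2 + 1) then J * (s u * s v) else 0) =
      J * ∑ x ∈ ver Λ, s x * s (x.1, x.2 + 1) := by
    rw [sum_comm]
    unfold ver
    rw [mul_sum, sum_filter]
    refine sum_congr rfl fun u _ => ?_
    rw [Finset.sum_ite_eq' Λ]
    split_ifs
    · ring
    · rfl
  rw [e1, e2, e3, e4]
  ring

theorem sp_ext {Λ T : Finset Site} {η : Config} {x : Site} (hx : x ∈ Λ) :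
    sp (ext Λ η T x) = tv T x := by
  unfold ext tv
  rw [if_pos hx]
  by_cases h : x ∈ T <;> simp [h, sp]

open Classical in
theorem weight_eq {J : ℝ} (hJ : 0 < J) (Λ T : Finset Site) :
    Real.exp (-(Kc / J) * energy J 0 (fun _ => 0) (fun A => A ⊆ Λ) (ext Λ (fun _ => true) T)) =
      (Real.exp Kc / (1 + tc)) ^ ((hor Λ).card + (ver Λ).card) * WW Λ 1 1 (tv T) := by
  rw [energy_pairs (Phi_pair0 J) (fun _ h => Phi_supp0 h) (window_win Λ)
    (Q := fun x => x ∈ Λ) (fun u v => sub_pair u v)]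
  have h1 : ∑ u ∈ win Λ, ∑ v ∈ win Λ, (if (u ∈ Λ ∨ v ∈ Λ) ∧ u ∈ Λ ∧ v ∈ Λ then
      cpl J 0 u v * (sp (ext Λ (fun _ => true) T u) * sp (ext Λ (fun _ => true) T v)) else 0) =
      ∑ u ∈ Λ, ∑ v ∈ Λ, cpl J 0 u v * (tv T u * tv T v) := by
    have hsub := (window_win Λ).1
    rw [← sum_subset hsub]
    · refine sum_congr rfl fun u hu => ?_
      rw [← sum_subset hsub]
      · refine sum_congr rfl fun v hv => ?_
        rw [if_pos ⟨Or.inl hu, hu, hv⟩, sp_ext hu, sp_ext hv]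
      · intro v _ hv
        rw [if_neg fun h => hv h.2.2]
    · intro u _ hu
      exact sum_eq_zero fun v _ => if_neg fun h => hu h.2.1
  suffices h5 : Real.exp (-(Kc / J) * -(1 / 2 * (∑ u ∈ Λ, ∑ v ∈ Λ, cpl J 0 u v * (tv T u * tv T v)))) =
      (Real.exp Kc / (1 + tc)) ^ ((hor Λ).card + (ver Λ).card) * WW Λ 1 1 (tv T) by
    rw [← h5, ← h1]
    congr!
  rw [edge_sum]
  have h2 : -(Kc / J) * -(1 / 2 * (2 * J * ((∑ x ∈ hor Λ, tv T x * tv T (x.1 + 1, x.2)) +
      ∑ x ∈ ver Λ, tv T x * tv T (x.1, x.2 + 1)))) =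
      (∑ x ∈ hor Λ, Kc * (tv T x * tv T (x.1 + 1, x.2))) +
      ∑ x ∈ ver Λ, Kc * (tv T x * tv T (x.1, x.2 + 1)) := by
    rw [← mul_sum, ← mul_sum]
    field_simp
  rw [h2, Real.exp_add, Real.exp_sum, Real.exp_sum]
  have h3 : ∏ x ∈ hor Λ, Real.exp (Kc * (tv T x * tv T (x.1 + 1, x.2))) =
      (Real.exp Kc / (1 + tc)) ^ (hor Λ).card *
        ∏ x ∈ hor Λ, (1 + (1 : Site → ℝ) x * tc * (tv T x * tv T (x.1 + 1, x.2))) := by
    rw [← prod_const, ← prod_mul_distrib]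
    exact prod_congr rfl fun x _ => exp_Kc (prod_pm (tv_eq T _) (tv_eq T _))
  have h4 : ∏ x ∈ ver Λ, Real.exp (Kc * (tv T x * tv T (x.1, x.2 + 1))) =
      (Real.exp Kc / (1 + tc)) ^ (ver Λ).card *
        ∏ x ∈ ver Λ, (1 + (1 : Site → ℝ) x * tc * (tv T x * tv T (x.1, x.2 + 1))) := by
    rw [← prod_const, ← prod_mul_distrib]
    exact prod_congr rfl fun x _ => exp_Kc (prod_pm (tv_eq T _) (tv_eq T _))
  rw [h3, h4, pow_add]
  unfold WW
  ring

/-- The free correlations with linear weights. -/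
theorem fcor_eq {J : ℝ} (hJ : 0 < J) {Λ A : Finset Site} (hA : A ⊆ Λ) :
    fcor J Λ A = (∑ T ∈ Λ.powerset, (∏ x ∈ A, tv T x) * WW Λ 1 1 (tv T)) / ZZ Λ := by
  unfold fcor gibbs expect ZZ
  simp only [weight_eq hJ]
  have hc : 0 < (Real.exp Kc / (1 + tc)) ^ ((hor Λ).card + (ver Λ).card) := by
    have := tc_pos
    positivity
  have h1 : ∑ T ∈ Λ.powerset, (∏ x ∈ A, sp (ext Λ (fun _ => true) T x)) *
      ((Real.exp Kc / (1 + tc)) ^ ((hor Λ).card + (ver Λ).card) * WW Λ 1 1 (tv T)) =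
      (Real.exp Kc / (1 + tc)) ^ ((hor Λ).card + (ver Λ).card) *
      ∑ T ∈ Λ.powerset, (∏ x ∈ A, tv T x) * WW Λ 1 1 (tv T) := by
    rw [mul_sum]
    refine sum_congr rfl fun T _ => ?_
    rw [prod_congr rfl fun x hx => sp_ext (hA hx)]
    ring
  rw [h1, ← mul_sum, mul_div_mul_left _ _ hc.ne']

theorem fcor_pair {J : ℝ} (hJ : 0 < J) {Λ : Finset Site} {p q : Site} (hp : p ∈ Λ) (hq : q ∈ Λ)
    (hpq : p ≠ q) : fcor J Λ {p, q} = N2 Λ 1 1 p q / ZZ Λ := by
  rw [fcor_eq hJ (by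
    intro x hx
    rw [mem_insert, mem_singleton] at hx
    rcases hx with rfl | rfl <;> assumption)]
  unfold N2
  congr 1
  refine sum_congr rfl fun T _ => ?_
  rw [prod_pair hpq]

/-- The diagonal two-point function of large boxes. -/
theorem fcor_box_diag {J : ℝ} (hJ : 0 < J) {k : ℕ} (hk : 1 ≤ k) :
    Tendsto (fun M : ℕ => fcor J (box M) {(0, 0), ((k : ℤ), (k : ℤ))}) atTop (𝓝 (Dg k)) := by
  rw [tendsto_iff_ultrafilter]
  intro U hU
  have h1 : Tendsto (fun M => SS M 0 k) U (𝓝 (SL U 0 k)) := ul_tendsto hU (SS_ev 0 k)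
  have h2 := SL_eq hU 0 k
  rw [zero_add] at h2
  rw [h2] at h1
  refine h1.congr' (hU ?_)
  filter_upwards [ev_box (0, 0), ev_box ((k : ℤ), (k : ℤ))] with M b1 b2
  rw [fcor_pair hJ b1 b2 (by
    intro h
    have := congrArg Prod.fst h
    simp only at this
    lia)]
  rfl

end Vale.Agent.P144
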