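import Vale.Agent.P144.U.Core
import Vale.Agent.P144.H436.Compare
import Vale.Agent.P144.H436.DiaDisc

/-!
Assembly of the disproof.
-/

namespace Vale.Agent.P144

open Filter Topology MeasureTheory

theorem zero_mem_Dia : (0 : ℂ) ∈ Dia := by
  show |(0:ℂ).re| + |(0:ℂ).im| < 1
  simp

theorem good_x1 {D : Set ℂ} {x : Fin 1 → ℂ} (hx : x 0 ∈ D) (y : Fin 0 → ℂ) (j : Fin 0 → Fin 2) :
    Good D ⟨1, 0, x, y, j⟩ := by
  refine ⟨one_pos, fun i => ?_, fun k => k.elim0, ?_⟩
  · have : i = 0 := Subsingleton.elim _ _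
    subst this
    exact hx
  · intro a b _
    rcases a with a | a
    · rcases b with b | b
      · exact congrArg Sum.inl (Subsingleton.elim a b)
      · exact b.elim0
    · exact a.elim0

theorem pts_one (x : Fin 1 → ℂ) (y : Fin 0 → ℂ) (j : Fin 0 → Fin 2) :
    (⟨1, 0, x, y, j⟩ : Pts) = ⟨1, 0, ![x 0], ![], ![]⟩ := by
  congr 1
  · funext i
    have : i = 0 := Subsingleton.elim _ _
    subst this; rfl
  · exact Subsingleton.elim _ _
  · exact Subsingleton.elim _ _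

theorem plus_nonneg {J lam β : ℝ} (hJ : 0 < J) (hl : 0 < lam) (hβ : 0 < β) (N : ℕ) :
    0 ≤ gibbs J lam Vk β (some bcp) (dia N) (fun σ => sp (σ (0, 0))) := by
  have h0 : ((0, 0) : Site) ∈ dia N := by rw [H436.mem_dia]; simp
  rw [gibbs_knight J lam β (window_win (dia N))]
  simp only [exs_mem h0]
  refine H436.gks1 (H436.KK_nonneg hβ.le hJ.le hl.le _) (fun i => ?_)
    (H436.Gin.spin (⟨(0, 0), h0⟩ : dia N))
  refine mul_nonneg hβ.le ?_
  unfold fld
  refine Finset.sum_nonneg fun v _ => ?_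
  split_ifs
  · exact mul_nonneg (cpl_nonneg hJ.le hl.le _ _) (by simp [bcp, sp])
  · exact le_rfl

theorem crit_zero {J : ℝ} (hJ : 0 < J) {z : ℂ} (hz : z ∈ Dia) :
    Lim (crit J Dia (some altb)) ⟨1, 0, ![z], ![], ![]⟩ 0 := by
  refine (H436.alt_one_point hJ (fun k hk => fcor_box_diag hJ hk) Dg_asymp hz).congr fun a => ?_
  exact (one_point _ _ _ _ _ _ _ _).symm

theorem compare_ev {J lam β : ℝ} (hJ : 0 < J) (hl : 0 < lam) (hβ : 0 < β) :
    ∃ C, ∀ᶠ N : ℕ in atTop,
      0 ≤ gibbs J lam Vk β (some bcp) (dia N) (fun σ => sp (σ (0, 0))) ∧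
      gibbs J lam Vk β (some bcp) (dia N) (fun σ => sp (σ (0, 0))) ≤
        C * gibbs J lam Vk β (some (alt N)) (dia N) (fun σ => sp (σ (0, 0))) := by
  obtain ⟨C, _, h⟩ := H436.compare_Dia hJ hl hβ
  refine ⟨C, ?_⟩
  filter_upwards [eventually_ge_atTop 4] with N hN
  exact ⟨plus_nonneg hJ hl hβ N, h N hN⟩

/-- No data exist for the knight-move potential and any `λ > 0`, in the reading by numbers of
points. -/
theorem noDataNM {J : ℝ} (hJ : 0 < J) {lam : ℝ} (hl : 0 < lam) : ¬ HasDataNM J Vk lam := by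
  rintro ⟨β, hβ, Zσ, hσ, Zε, _, ⟨E, hE, hId⟩, hD⟩
  have hlim : NLim Dia (crit J Dia (some altb)) 1 0 ![] := by
    intro x y hg
    refine ⟨0, ?_⟩
    rw [pts_one]
    exact crit_zero hJ (hg.2.1 0)
  have h1 := hD Dia H436.Dia_open H436.Dia_connected H436.Dia_bounded (some altb) 1 0 ![] hlim
    ![0] ![] (good_x1 zero_mem_Dia _ _) 0 (crit_zero hJ zero_mem_Dia)
  rw [mul_zero] at h1
  exact core (Zε := Zε) hJ hl hβ (compare_ev hJ hl hβ) (fun a ha => H436.disc_Dia ha) hE hσ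
    (fun E₀ hE₀ c hc => hId E₀ hE₀ p2 good_p2 c hc) h1

/-- No data exist for the knight-move potential and any `λ > 0`, provided that all limits of the
critical nearest-neighbour model exist for the alternating boundary condition in the square. -/
theorem noData {J : ℝ} (hJ : 0 < J) (hall : AllLim Dia (crit J Dia (some altb))) {lam : ℝ}
    (hl : 0 < lam) : ¬ HasData J Vk lam := by
  rintro ⟨β, hβ, Zσ, hσ, Zε, _, ⟨E, hE, hId⟩, hD⟩
  have h1 := hD Dia H436.Dia_open H436.Dia_connected H436.Dia_bounded (some altb) hall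
    ⟨1, 0, ![0], ![], ![]⟩ (good_x1 zero_mem_Dia _ _) 0 (crit_zero hJ zero_mem_Dia)
  rw [mul_zero] at h1
  exact core (Zε := Zε) hJ hl hβ (compare_ev hJ hl hβ) (fun a ha => H436.disc_Dia ha) hE hσ
    (fun E₀ hE₀ c hc => hId E₀ hE₀ p2 good_p2 c hc) h1

theorem not_Q1nm : ¬ Q1nm := by
  intro h
  obtain ⟨lam₀, hl₀, hall⟩ := h 1 one_pos Vk Vk_potential
  refine noDataNM (lam := lam₀ / 2) one_pos (by positivity) (hall _ ?_)
  rw [abs_of_pos (by positivity)]
  linarith

theorem not_Q1 {J : ℝ} (hJ : 0 < J) (hall : AllLim Dia (crit J Dia (some altb))) : ¬ Q1 := by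
  intro h
  obtain ⟨lam₀, hl₀, h'⟩ := h J hJ Vk Vk_potential
  refine noData hJ hall (lam := lam₀ / 2) (by positivity) (h' _ ?_)
  rw [abs_of_pos (by positivity)]
  linarith

end Vale.Agent.P144
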