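import Vale.Agent.P144.U.Spec
import Mathlib.LinearAlgebra.Lagrange

/-!
The Cauchy system `a = ∑ x_l / (k + 1/2 - l)`, `k < N`, solved with polynomials.
-/

namespace Vale.Agent.P144

open Finset Polynomial

/-- `∏_{k<N} (k + 1/2)`. -/
noncomputable def hh (N : ℕ) : ℝ := ∏ k ∈ range N, ((k:ℝ) + 1 / 2)

theorem hh_pos (N : ℕ) : 0 < hh N := prod_pos fun k _ => by positivity

theorem hh_succ (N : ℕ) : hh (N + 1) = hh N * (N + 1 / 2) := by
  unfold hh; rw [prod_range_succ]

theorem fact_prod (N : ℕ) : ((N.factorial : ℕ) : ℝ) = ∏ k ∈ range N, ((k:ℝ) + 1) := by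
  induction N with
  | zero => simp
  | succ N ih => rw [prod_range_succ, ← ih, Nat.factorial_succ]; push_cast; ring

theorem prod_half_refl (N : ℕ) : ∏ k ∈ range N, ((N:ℝ) - (k + 1 / 2)) = hh N := by
  unfold hh
  rw [← prod_range_reflect (fun k : ℕ => (k:ℝ) + 1 / 2)]
  refine prod_congr rfl fun k hk => ?_
  rw [mem_range] at hk
  rw [Nat.cast_sub (by lia), Nat.cast_sub (by lia)]
  push_cast; ring

theorem prod_refl (N : ℕ) : ∏ k ∈ range N, ((N:ℝ) - k) = (N.factorial : ℝ) := by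
  rw [fact_prod, ← prod_range_reflect (fun k : ℕ => (k:ℝ) + 1)]
  refine prod_congr rfl fun k hk => ?_
  rw [mem_range] at hk
  rw [Nat.cast_sub (by lia), Nat.cast_sub (by lia)]
  push_cast; ring

theorem prod_half_refl' (N : ℕ) : ∏ l ∈ range (N + 1), ((N:ℝ) + 1 / 2 - l) = hh (N + 1) := by
  rw [← prod_half_refl]
  refine prod_congr rfl fun k _ => ?_
  push_cast; ring

theorem prod_neg_const (N : ℕ) (f : ℕ → ℝ) : ∏ k ∈ range N, (- f k) = (-1) ^ N * ∏ k ∈ range N, f k := by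
  rw [Finset.prod_neg, card_range]

/-- The polynomial of the Cauchy system. -/
noncomputable def PP (N : ℕ) (x : ℕ → ℝ) (a : ℝ) : ℝ[X] :=
  C a * ∏ l ∈ range (N + 1), (X - C (l:ℝ)) -
    ∑ l ∈ range (N + 1), C (x l) * ∏ l' ∈ (range (N + 1)).erase l, (X - C (l':ℝ))

theorem PP_eval (N : ℕ) (x : ℕ → ℝ) (a t : ℝ) (ht : ∀ l ∈ range (N + 1), t - (l:ℝ) ≠ 0) :
    (PP N x a).eval t = (∏ l ∈ range (N + 1), (t - (l:ℝ))) *
      (a - ∑ l ∈ range (N + 1), x l / (t - l)) := by
  unfold PP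
  rw [eval_sub, eval_mul, eval_C, eval_prod, eval_finsetSum, mul_sub, mul_sum, mul_comm a]
  congr 1
  · simp
  · refine sum_congr rfl fun l hl => ?_
    rw [eval_mul, eval_C, eval_prod, ← mul_prod_erase _ _ hl]
    simp only [eval_sub, eval_X, eval_C]
    have := ht l hl
    field_simp

theorem PP_eval_node (N : ℕ) (x : ℕ → ℝ) (a : ℝ) {m : ℕ} (hm : m ∈ range (N + 1)) :
    (PP N x a).eval (m:ℝ) = - (x m * ∏ l' ∈ (range (N + 1)).erase m, ((m:ℝ) - l')) := by
  unfold PP
  rw [eval_sub, eval_mul, eval_prod, eval_finsetSum, prod_eq_zero hm (by simp), mul_zero, zero_sub]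
  congr 1
  rw [sum_eq_single m]
  · rw [eval_mul, eval_C, eval_prod]
    simp
  · intro l hl hlm
    rw [eval_mul, eval_prod, prod_eq_zero (i := m) (mem_erase.2 ⟨fun h => hlm h.symm, hm⟩) (by simp),
      mul_zero]
  · intro h; exact absurd hm h

/-- The factorised form. -/
noncomputable def QQ (N : ℕ) (a β : ℝ) : ℝ[X] :=
  (C a * X + C β) * ∏ k ∈ range N, (X - C ((k:ℝ) + 1 / 2))

theorem QQ_eval (N : ℕ) (a β t : ℝ) :
    (QQ N a β).eval t = (a * t + β) * ∏ k ∈ range N, (t - ((k:ℝ) + 1 / 2)) := by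
  unfold QQ
  rw [eval_mul, eval_prod]
  simp

theorem degree_C_mul_le' (a : ℝ) (p : ℝ[X]) : (C a * p).degree ≤ p.degree := by
  by_cases ha : a = 0
  · subst ha; simp
  · rw [degree_C_mul ha]

theorem deg_PQ (N : ℕ) (x : ℕ → ℝ) (a β : ℝ) : (PP N x a - QQ N a β).degree < ((N + 1 : ℕ) : WithBot ℕ) := by
  have e : PP N x a - QQ N a β = C a * (∏ l ∈ range (N + 1), (X - C (l:ℝ)) -
      X * ∏ k ∈ range N, (X - C ((k:ℝ) + 1 / 2))) -
      (C β * ∏ k ∈ range N, (X - C ((k:ℝ) + 1 / 2)) +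
      ∑ l ∈ range (N + 1), C (x l) * ∏ l' ∈ (range (N + 1)).erase l, (X - C (l':ℝ))) := by
    unfold PP QQ; ring
  rw [e]
  have hm1 : (∏ l ∈ range (N + 1), (X - C (l:ℝ))).Monic := monic_prod_of_monic _ _ fun l _ => monic_X_sub_C _
  have hm2 : (∏ k ∈ range N, (X - C ((k:ℝ) + 1 / 2))).Monic :=
    monic_prod_of_monic _ _ fun l _ => monic_X_sub_C _
  have hd1 : (∏ l ∈ range (N + 1), (X - C (l:ℝ))).degree = ((N + 1 : ℕ) : WithBot ℕ) := by
    rw [degree_prod]; simp only [degree_X_sub_C]; simp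
  have hd2 : (∏ k ∈ range N, (X - C ((k:ℝ) + 1 / 2))).degree = ((N : ℕ) : WithBot ℕ) := by
    rw [degree_prod]; simp only [degree_X_sub_C]; simp
  have hd3 : (X * ∏ k ∈ range N, (X - C ((k:ℝ) + 1 / 2))).degree = ((N + 1 : ℕ) : WithBot ℕ) := by
    rw [degree_mul, hd2, degree_X]; push_cast; rw [add_comm]
  have hm3 : (X * ∏ k ∈ range N, (X - C ((k:ℝ) + 1 / 2))).Monic := monic_X.mul hm2
  refine (degree_sub_le _ _).trans_lt (max_lt ?_ ?_)
  · refine (degree_C_mul_le' _ _).trans_lt ?_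
    have := degree_sub_lt (hd1.trans hd3.symm) hm1.ne_zero (hm1.leadingCoeff.trans hm3.leadingCoeff.symm)
    rwa [hd1] at this
  · refine (degree_add_le _ _).trans_lt (max_lt ?_ ?_)
    · refine (degree_C_mul_le' _ _).trans_lt ?_
      rw [hd2]
      exact_mod_cast Nat.lt_succ_self N
    · refine (degree_sum_le _ _).trans_lt ?_
      rw [Finset.sup_lt_iff (WithBot.bot_lt_coe _)]
      intro l hl
      refine (degree_C_mul_le' _ _).trans_lt ?_
      rw [degree_prod]
      simp only [degree_X_sub_C, sum_const, card_erase_of_mem hl, card_range, nsmul_eq_mul, mul_one]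
      simp only [Nat.add_sub_cancel]
      exact_mod_cast Nat.lt_succ_self N

theorem cauchy_system (N : ℕ) (x : ℕ → ℝ) (a : ℝ)
    (h : ∀ k < N, a - ∑ l ∈ range (N + 1), x l / ((k:ℝ) + 1 / 2 - l) = 0) :
    ∃ β : ℝ, x 0 * N.factorial = - (hh N * β) ∧ x N * N.factorial = - (hh N * (a * N + β)) ∧
      (a - ∑ l ∈ range (N + 1), x l / (-1 / 2 - (l:ℝ))) * hh (N + 1) =
        - ((β - a / 2) * N.factorial) ∧
      (a - ∑ l ∈ range (N + 1), x l / ((N:ℝ) + 1 / 2 - l)) * hh (N + 1) =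
        (a * (N + 1 / 2) + β) * N.factorial := by
  obtain ⟨β, hβ⟩ : ∃ β : ℝ, β = (PP N x a).eval 0 / ∏ k ∈ range N, (0 - ((k:ℝ) + 1 / 2)) := ⟨_, rfl⟩
  have hne : ∏ k ∈ range N, (0 - ((k:ℝ) + 1 / 2)) ≠ 0 := by
    refine prod_ne_zero_iff.2 fun k _ => ?_
    have : (0:ℝ) < (k:ℝ) + 1 / 2 := by positivity
    linarith
  have half_ne : ∀ (k l : ℤ), (k:ℝ) + 1 / 2 - l ≠ 0 := by
    intro k l h
    have : 2 * k + 1 - 2 * l = 0 := by
      have : (2 * (k:ℝ) + 1 - 2 * l) = 0 := by linarith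
      exact_mod_cast this
    lia
  set s : Finset ℝ := insert 0 ((range N).image fun k : ℕ => (k:ℝ) + 1 / 2) with hs
  have hcard : s.card = N + 1 := by
    rw [hs, card_insert_of_notMem, card_image_of_injective, card_range]
    · intro k l h
      simpa using h
    · rw [mem_image]
      rintro ⟨k, _, hk⟩
      have : (0:ℝ) < (k:ℝ) + 1 / 2 := by positivity
      linarith
  have hPQ : PP N x a = QQ N a β := by
    refine eq_of_degree_sub_lt_of_eval_finset_eq s (by rw [hcard]; exact deg_PQ N x a β) ?_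
    intro t ht
    rw [hs, mem_insert, mem_image] at ht
    rcases ht with rfl | ⟨k, hk, rfl⟩
    · rw [QQ_eval, hβ, mul_zero, zero_add, div_mul_cancel₀ _ hne]
    · rw [QQ_eval, prod_eq_zero hk (by ring), mul_zero, PP_eval]
      · rw [h k (mem_range.1 hk), mul_zero]
      · intro l _
        exact_mod_cast half_ne k l
  refine ⟨β, ?_, ?_, ?_, ?_⟩
  · have h0 := PP_eval_node N x a (m := 0) (by simp)
    rw [hPQ, QQ_eval] at h0
    have e1 : ∏ k ∈ range N, (((0:ℕ):ℝ) - ((k:ℝ) + 1 / 2)) = (-1) ^ N * hh N := by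
      unfold hh; rw [← prod_neg_const]
      exact prod_congr rfl fun k _ => by push_cast; ring
    have e2 : ∏ l' ∈ (range (N + 1)).erase 0, (((0:ℕ):ℝ) - l') = (-1) ^ N * (N.factorial : ℝ) := by
      rw [fact_prod, ← prod_neg_const]
      have : (range (N + 1)).erase 0 = (range N).image Nat.succ := by
        ext k
        simp only [mem_erase, mem_range, mem_image]
        constructor
        · rintro ⟨h1, h2⟩
          exact ⟨k - 1, by lia, by lia⟩
        · rintro ⟨l, h1, rfl⟩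
          exact ⟨by lia, by lia⟩
      rw [this, prod_image (fun a _ b _ h => Nat.succ_injective h)]
      exact prod_congr rfl fun k _ => by push_cast; ring
    rw [e1, e2] at h0
    have hsgn : ((-1:ℝ) ^ N) * (-1) ^ N = 1 := by rw [← mul_pow]; norm_num
    push_cast at h0
    linear_combination ((-1:ℝ) ^ N) * h0 - (hh N * β + x 0 * N.factorial) * hsgn
  · have h0 := PP_eval_node N x a (m := N) (by simp)
    rw [hPQ, QQ_eval, prod_half_refl] at h0
    have e2 : (range (N + 1)).erase N = range N := by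
      ext k; simp only [mem_erase, mem_range]; lia
    rw [e2, prod_refl] at h0
    linear_combination h0
  · have h0 := PP_eval N x a (-1 / 2) (by
      intro l _
      have := half_ne (-1) l
      push_cast at this
      intro h'
      apply this
      linarith)
    rw [hPQ, QQ_eval] at h0
    have e1 : ∏ l ∈ range (N + 1), (-1 / 2 - (l:ℝ)) = (-1) ^ (N + 1) * hh (N + 1) := by
      unfold hh; rw [← prod_neg_const]
      exact prod_congr rfl fun k _ => by ring
    have e2 : ∏ k ∈ range N, (-1 / 2 - ((k:ℝ) + 1 / 2)) = (-1) ^ N * (N.factorial : ℝ) := by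
      rw [fact_prod, ← prod_neg_const]
      exact prod_congr rfl fun k _ => by ring
    rw [e1, e2] at h0
    have hsgn : ((-1:ℝ) ^ N) * (-1) ^ N = 1 := by rw [← mul_pow]; norm_num
    rw [pow_succ] at h0
    set G := a - ∑ l ∈ range (N + 1), x l / (-1 / 2 - (l:ℝ))
    linear_combination ((-1:ℝ) ^ N) * h0 - (G * hh (N + 1) + (β - a / 2) * N.factorial) * hsgn
  · have h0 := PP_eval N x a (N + 1 / 2) (by
      intro l _
      exact_mod_cast half_ne N l)
    rw [hPQ, QQ_eval, prod_half_refl'] at h0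
    have e2 : ∏ k ∈ range N, ((N:ℝ) + 1 / 2 - ((k:ℝ) + 1 / 2)) = (N.factorial : ℝ) := by
      rw [← prod_refl]
      exact prod_congr rfl fun k _ => by ring
    rw [e2] at h0
    linear_combination -h0

end Vale.Agent.P144
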