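import Vale.Agent.P144.U.Stmt
import Vale.Agent.P144.U.Link
import Vale.Agent.P144.U.Asymp
import Vale.Agent.P144.H436.Plane
import Vale.Agent.P144.H436.PlaneLe

/-!
The contradiction between the plane and the alternating boundary condition in the square.
-/

namespace Vale.Agent.P144

open Filter Topology MeasureTheory

/-- The points `0` and `10 + 10 i`. -/
noncomputable def p2 : Pts := ⟨2, 0, ![0, ⟨10, 10⟩], ![], ![]⟩

theorem good_p2 : Good Set.univ p2 := by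
  refine ⟨by norm_num [p2], fun i => trivial, fun k => trivial, ?_⟩
  intro a b h
  rcases a with a | a
  · rcases b with b | b
    · congr 1
      change ![(0:ℂ), ⟨10, 10⟩] a = ![(0:ℂ), ⟨10, 10⟩] b at h
      fin_cases a <;> fin_cases b
      · rfl
      · exfalso
        have := congrArg Complex.re h
        change (0:ℝ) = 10 at this
        norm_num at this
      · exfalso
        have := congrArg Complex.re h
        change (10:ℝ) = 0 at this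
        norm_num at this
      · rfl
    · exact b.elim0
  · exact a.elim0

theorem fl_zero (a : ℝ) : fl a 0 = (0, 0) := by simp [fl]

theorem fl_ten {a : ℝ} (ha : 0 < a) : fl a ⟨10, 10⟩ = (((⌊10 / a⌋₊ : ℕ) : ℤ), ((⌊10 / a⌋₊ : ℕ) : ℤ)) := by
  unfold fl
  simp only
  rw [Int.natCast_floor_eq_floor (by positivity)]

theorem corr_p2 (μ : Measure Config) {a : ℝ} (ha : 0 < a) :
    corr a (fun F => ∫ σ, F σ ∂μ) p2 = a ^ (-(1 / 4) : ℝ) *
      ∫ σ, sp (σ (0, 0)) * sp (σ (((⌊10 / a⌋₊ : ℕ) : ℤ), ((⌊10 / a⌋₊ : ℕ) : ℤ))) ∂μ := by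
  unfold corr
  rw [← integral_const_mul]
  congr 1
  funext σ
  have h1 : (∏ i : Fin p2.n, a ^ (-(1 / 8) : ℝ) * sp (σ (fl a (p2.x i)))) =
      (a ^ (-(1 / 8) : ℝ) * sp (σ (fl a 0))) * (a ^ (-(1 / 8) : ℝ) * sp (σ (fl a ⟨10, 10⟩))) :=
    Fin.prod_univ_two (fun i : Fin 2 => a ^ (-(1 / 8) : ℝ) * sp (σ (fl a (![(0:ℂ), ⟨10, 10⟩] i))))
  rw [h1, fl_zero, fl_ten ha]
  have h2 : a ^ (-(1 / 4) : ℝ) = a ^ (-(1 / 8) : ℝ) * a ^ (-(1 / 8) : ℝ) := by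
    rw [← Real.rpow_add ha]; norm_num
  have h3 : (∏ k : Fin p2.m, a⁻¹ * (sp (σ (fl a (p2.y k))) * sp (σ (fl a (p2.y k) + dir (p2.j k)))
      - ∫ τ, sp (τ (fl a (p2.y k))) * sp (τ (fl a (p2.y k) + dir (p2.j k))) ∂μ)) = 1 :=
    haveI : IsEmpty (Fin p2.m) := inferInstanceAs (IsEmpty (Fin 0))
    Finset.prod_of_isEmpty _
  rw [h3, h2]
  ring

theorem tendsto_floor : Tendsto (fun a : ℝ => ⌊10 / a⌋₊) (𝓝[>] 0) atTop := by
  have h : Tendsto (fun a : ℝ => 10 / a) (𝓝[>] 0) atTop :=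
    (tendsto_inv_nhdsGT_zero.const_mul_atTop (by norm_num)).congr fun a => (div_eq_mul_inv 10 a).symm
  exact tendsto_nat_floor_atTop.comp h

theorem tendsto_ceil : Tendsto (fun a : ℝ => ⌈1 / a⌉₊ - 1) (𝓝[>] 0) atTop := by
  have h1 : Tendsto (fun a : ℝ => ⌈1 / a⌉₊) (𝓝[>] 0) atTop := by
    have h : Tendsto (fun a : ℝ => 1 / a) (𝓝[>] 0) atTop :=
      tendsto_inv_nhdsGT_zero.congr fun a => (one_div a).symm
    exact tendsto_nat_ceil_atTop.comp h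
  exact (tendsto_sub_atTop_nat 1).comp h1

theorem floor_mul_lim : Tendsto (fun a : ℝ => (⌊10 / a⌋₊ : ℝ) * a) (𝓝[>] 0) (𝓝 10) := by
  have h1 : Tendsto (fun a : ℝ => 10 - a) (𝓝[>] 0) (𝓝 (10 - 0)) :=
    (tendsto_const_nhds.sub tendsto_id).mono_left nhdsWithin_le_nhds
  rw [sub_zero] at h1
  refine tendsto_of_tendsto_of_tendsto_of_le_of_le' h1 tendsto_const_nhds ?_ ?_
  · filter_upwards [self_mem_nhdsWithin] with a ha
    have ha : 0 < a := ha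
    have h2 := Nat.lt_floor_add_one (10 / a)
    have h3 : 10 / a * a = 10 := by field_simp
    nlinarith
  · filter_upwards [self_mem_nhdsWithin] with a ha
    have ha : 0 < a := ha
    have h2 := Nat.floor_le (show 0 ≤ 10 / a by positivity)
    have h3 : 10 / a * a = 10 := by field_simp
    nlinarith

/-- The limit of the rescaled plane two-point function. -/
theorem plane_lim {A : ℝ} (hA : Tendsto (fun n : ℕ => (n:ℝ) ^ (1 / 4 : ℝ) * Dg n) atTop (𝓝 A)) :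
    Tendsto (fun a : ℝ => a ^ (-(1 / 4) : ℝ) * Dg ⌊10 / a⌋₊) (𝓝[>] 0)
      (𝓝 ((10:ℝ) ^ (-(1 / 4) : ℝ) * A)) := by
  have h1 := hA.comp tendsto_floor
  have h2 := floor_mul_lim.rpow_const (p := (-(1 / 4) : ℝ)) (Or.inl (by norm_num))
  refine (h2.mul h1).congr' ?_
  filter_upwards [self_mem_nhdsWithin, tendsto_floor.eventually_ge_atTop 1] with a ha hn
  have ha : 0 < a := ha
  have hn' : (0:ℝ) < (⌊10 / a⌋₊ : ℝ) := by exact_mod_cast hn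
  simp only [Function.comp]
  rw [Real.mul_rpow hn'.le ha.le]
  have h3 : (⌊10 / a⌋₊ : ℝ) ^ (-(1 / 4) : ℝ) * (⌊10 / a⌋₊ : ℝ) ^ (1 / 4 : ℝ) = 1 := by
    rw [← Real.rpow_add hn']; norm_num
  linear_combination (a ^ (-(1 / 4) : ℝ) * Dg ⌊10 / a⌋₊) * h3

theorem crit_plane {J : ℝ} (hJ : 0 < J) : ∃ E₀ c, PlaneFam J 0 (fun _ => 0) (Kc / J) E₀ ∧ 0 < c ∧
    Lim E₀ p2 c := by
  obtain ⟨μ, hμ, hlim⟩ := H436.free_plane hJ
  obtain ⟨A, hA, hAlim⟩ := Dg_asymp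
  refine ⟨fun _ F => ∫ σ, F σ ∂μ, (10:ℝ) ^ (-(1 / 4) : ℝ) * A,
    ⟨fun _ => μ, fun _ _ => hμ, fun _ _ => rfl⟩, by positivity, ?_⟩
  refine (plane_lim hAlim).congr' ?_
  filter_upwards [self_mem_nhdsWithin, tendsto_floor.eventually_ge_atTop 1] with a ha hn
  rw [corr_p2 μ ha]
  congr 1
  have h1 := hlim {(0, 0), (((⌊10 / a⌋₊ : ℕ) : ℤ), ((⌊10 / a⌋₊ : ℕ) : ℤ))}
  have h2 := tendsto_nhds_unique (fcor_box_diag hJ hn) h1
  rw [h2]
  congr 1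
  funext σ
  rw [Finset.prod_pair]
  intro h
  have := congrArg Prod.fst h
  simp only at this
  lia

/-- The contradiction. -/
theorem core {J lam β : ℝ} (hJ : 0 < J) (hl : 0 < lam) (hβ : 0 < β)
    (hcomp : ∃ C, ∀ᶠ N : ℕ in atTop,
      0 ≤ gibbs J lam Vk β (some bcp) (dia N) (fun σ => sp (σ (0, 0))) ∧
      gibbs J lam Vk β (some bcp) (dia N) (fun σ => sp (σ (0, 0))) ≤
        C * gibbs J lam Vk β (some (alt N)) (dia N) (fun σ => sp (σ (0, 0))))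
    (hdisc : ∀ a : ℝ, 0 < a → disc Dia a = dia (⌈1 / a⌉₊ - 1))
    {E : Fam} (hE : PlaneFam J lam Vk β E) {Zσ Zε : ℝ} (hZ : Zσ ≠ 0)
    (h2 : ∀ E₀, PlaneFam J 0 (fun _ => 0) (Kc / J) E₀ → ∀ c, Lim E₀ p2 c →
      Lim E p2 (Zσ ^ 2 * Zε ^ 0 * c))
    (h1 : Lim (inDom J lam Vk β Dia (some altb)) ⟨1, 0, ![0], ![], ![]⟩ 0) : False := by
  obtain ⟨E₀, c, hE₀, hc, hlim⟩ := crit_plane hJ
  have h3 := h2 E₀ hE₀ c hlim
  rw [pow_zero, mul_one] at h3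
  obtain ⟨μ, hμ, hEμ⟩ := hE
  obtain ⟨C, hC⟩ := hcomp
  have h4 : Tendsto (fun a : ℝ => a ^ (-(1 / 8) : ℝ) *
      gibbs J lam Vk β (some (alt (⌈1 / a⌉₊ - 1))) (dia (⌈1 / a⌉₊ - 1)) (fun σ => sp (σ (0, 0))))
      (𝓝[>] 0) (𝓝 0) := by
    refine h1.congr' ?_
    filter_upwards [self_mem_nhdsWithin] with a ha
    have e : inDom J lam Vk β Dia (some altb) a =
        gibbs J lam Vk β (some (alt (⌈1 / a⌉₊ - 1))) (dia (⌈1 / a⌉₊ - 1)) := by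
      unfold inDom
      rw [hdisc a ha]
      rfl
    rw [e, one_point, fl_zero]
  have h5 : Tendsto (fun a : ℝ => (C * (a ^ (-(1 / 8) : ℝ) *
      gibbs J lam Vk β (some (alt (⌈1 / a⌉₊ - 1))) (dia (⌈1 / a⌉₊ - 1)) (fun σ => sp (σ (0, 0))))) ^ 2)
      (𝓝[>] 0) (𝓝 ((C * 0) ^ 2)) := (h4.const_mul C).pow 2
  rw [mul_zero, zero_pow two_ne_zero] at h5
  have h6 : Zσ ^ 2 * c ≤ 0 := by
    refine le_of_tendsto_of_tendsto h3 h5 ?_
    have hsmall : ∀ᶠ a : ℝ in 𝓝[>] 0, a < 1 :=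
      mem_nhdsWithin_of_mem_nhds (Iio_mem_nhds one_pos)
    filter_upwards [self_mem_nhdsWithin, tendsto_ceil.eventually hC, hsmall] with a ha hCa ha1
    have ha : 0 < a := ha
    have e1 : corr a (E a) p2 = corr a (fun F => ∫ σ, F σ ∂(μ a)) p2 := by
      congr 1
      funext F
      exact hEμ a F
    rw [e1, corr_p2 (μ a) ha]
    have hn : ⌈1 / a⌉₊ - 1 + 3 ≤ ⌊10 / a⌋₊ := by
      have h7 : 1 ≤ 1 / a := by rw [le_div_iff₀ ha]; linarith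
      refine Nat.le_floor ?_
      have h8 := Nat.ceil_lt_add_one (show 0 ≤ 1 / a by positivity)
      have h9 : 1 ≤ ⌈1 / a⌉₊ := Nat.one_le_ceil_iff.2 (by positivity)
      have e10 : (10:ℝ) / a = 10 * (1 / a) := by ring
      push_cast [h9]
      rw [e10]
      linarith
    have h7 := H436.plane_le hJ hl hβ (hμ a ha) hn
    have hp : 0 < a ^ (-(1 / 4) : ℝ) := Real.rpow_pos_of_pos ha _
    have hp8 : a ^ (-(1 / 4) : ℝ) = (a ^ (-(1 / 8) : ℝ)) ^ 2 := by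
      rw [← Real.rpow_natCast, ← Real.rpow_mul ha.le]; norm_num
    calc a ^ (-(1 / 4) : ℝ) *
          ∫ σ, sp (σ (0, 0)) * sp (σ (((⌊10 / a⌋₊ : ℕ) : ℤ), ((⌊10 / a⌋₊ : ℕ) : ℤ))) ∂(μ a)
        ≤ a ^ (-(1 / 4) : ℝ) * (gibbs J lam Vk β (some bcp) (dia (⌈1 / a⌉₊ - 1))
            (fun σ => sp (σ (0, 0)))) ^ 2 := mul_le_mul_of_nonneg_left h7 hp.le
      _ ≤ a ^ (-(1 / 4) : ℝ) * (C * gibbs J lam Vk β (some (alt (⌈1 / a⌉₊ - 1)))
            (dia (⌈1 / a⌉₊ - 1)) (fun σ => sp (σ (0, 0)))) ^ 2 :=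
          mul_le_mul_of_nonneg_left (pow_le_pow_left₀ hCa.1 hCa.2 2) hp.le
      _ = _ := by rw [hp8]; ring
  have h7 : 0 < Zσ ^ 2 * c := by positivity
  linarith

end Vale.Agent.P144
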