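import Vale.Agent.P144.U.Spec
import Mathlib.Analysis.SpecialFunctions.Integrals.Basic

/-!
Bounded solutions of the discrete Cauchy-Riemann equations above the diagonal are determined by
their diagonal values, up to a constant, through the Cauchy kernel `1 / (k - l + 1/2)`.
-/

namespace Vale.Agent.P144

open Finset intervalIntegral

section liouville

theorem liouville_aux {f : ℤ → ℤ → ℝ} {B : ℝ} (hb : ∀ i j, |f i j| ≤ B)
    (hh : ∀ i j, f (i + 1) j + f (i - 1) j + f i (j + 1) + f i (j - 1) = 4 * f i j) (i j : ℤ) :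
    f (i + 1) j ≤ f i j := by
  set g : ℤ × ℤ → ℝ := fun x => f (x.1 + 1) x.2 - f x.1 x.2 with hg
  have hgb : BddAbove (Set.range g) := by
    refine ⟨2 * B, ?_⟩
    rintro _ ⟨x, rfl⟩
    have h1 := abs_le.1 (hb (x.1 + 1) x.2)
    have h2 := abs_le.1 (hb x.1 x.2)
    simp only [hg]
    linarith
  set S := ⨆ x, g x with hS
  have hle : ∀ x, g x ≤ S := fun x => le_ciSup hgb x
  suffices hS0 : S ≤ 0 by
    have := hle (i, j)
    simp only [hg] at this
    linarith
  by_contra hpos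
  push Not at hpos
  have hgh : ∀ x : ℤ × ℤ, g (x.1 + 1, x.2) + g (x.1 - 1, x.2) + g (x.1, x.2 + 1) +
      g (x.1, x.2 - 1) = 4 * g x := by
    intro x
    simp only [hg]
    have h1 := hh (x.1 + 1) x.2
    have h2 := hh x.1 x.2
    rw [add_sub_cancel_right] at h1
    rw [sub_add_cancel]
    linarith
  have key : ∀ N : ℕ, (N - 1 : ℝ) * S ≤ 2 * B := by
    intro N
    have h4 : (0:ℝ) < 4 ^ N := by positivity
    obtain ⟨x, hx⟩ := exists_lt_of_lt_ciSup (show S - S / 4 ^ N < ⨆ x, g x by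
      rw [← hS]
      have : 0 < S / 4 ^ N := by positivity
      linarith)
    have hk : ∀ k : ℕ, S - 4 ^ k * (S / 4 ^ N) ≤ g (x.1 + k, x.2) := by
      intro k
      induction k with
      | zero =>
        simp only [Nat.cast_zero, add_zero, pow_zero, one_mul]
        exact hx.le
      | succ k ih =>
        have h := hgh (x.1 + k, x.2)
        have h1 := hle (x.1 + k - 1, x.2)
        have h2 := hle (x.1 + k, x.2 + 1)
        have h3 := hle (x.1 + k, x.2 - 1)
        simp only at h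
        have e : x.1 + ((k + 1 : ℕ) : ℤ) = x.1 + k + 1 := by push_cast; ring
        rw [e]
        have e2 : (4:ℝ) ^ (k + 1) = 4 * 4 ^ k := by ring
        rw [e2]
        nlinarith
    have hf : ∀ k : ℕ, (k : ℝ) * S - (4 ^ k - 1) / 3 * (S / 4 ^ N) ≤
        f (x.1 + k) x.2 - f x.1 x.2 := by
      intro k
      induction k with
      | zero => simp
      | succ k ih =>
        have h := hk k
        simp only [hg] at h
        have e : x.1 + ((k + 1 : ℕ) : ℤ) = x.1 + k + 1 := by push_cast; ring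
        rw [e]
        have e2 : (4:ℝ) ^ (k + 1) = 4 * 4 ^ k := by ring
        rw [e2]
        push_cast
        linarith
    have h1 := hf N
    have h2 := abs_le.1 (hb (x.1 + N) x.2)
    have h3 := abs_le.1 (hb x.1 x.2)
    have h5 : (4 ^ N - 1) / 3 * (S / 4 ^ N) ≤ S := by
      have : (4 ^ N - 1) / 3 * (S / 4 ^ N) = (1 - 1 / 4 ^ N) / 3 * S := by
        field_simp
      rw [this]
      have h6 : (0:ℝ) < 1 / 4 ^ N := by positivity
      nlinarith
    nlinarith
  obtain ⟨N, hN⟩ := exists_nat_gt (2 * B / S + 1)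
  have h1 := key N
  have h2 : 2 * B / S < N - 1 := by linarith
  rw [div_lt_iff₀ hpos] at h2
  linarith

/-- A bounded harmonic function on `ℤ²` is constant. -/
theorem liouville {f : ℤ → ℤ → ℝ} {B : ℝ} (hb : ∀ i j, |f i j| ≤ B)
    (hh : ∀ i j, f (i + 1) j + f (i - 1) j + f i (j + 1) + f i (j - 1) = 4 * f i j) :
    ∀ i j, f i j = f 0 0 := by
  have h1 : ∀ i j, f (i + 1) j = f i j := by
    intro i j
    refine le_antisymm (liouville_aux hb hh i j) ?_
    have := liouville_aux (f := fun i j => - f i j) (B := B) (fun i j => by rw [abs_neg]; exact hb i j)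
      (fun i j => by linarith [hh i j]) i j
    linarith
  have h2 : ∀ i j, f i (j + 1) = f i j := by
    intro i j
    refine le_antisymm (liouville_aux (f := fun i j => f j i) (fun i j => hb j i)
      (fun i j => by linarith [hh j i]) j i) ?_
    have := liouville_aux (f := fun i j => - f j i) (B := B) (fun i j => by rw [abs_neg]; exact hb j i)
      (fun i j => by linarith [hh j i]) j i
    linarith
  have h3 : ∀ i j, f i j = f 0 j := by
    intro i j
    induction i using Int.induction_on with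
    | zero => rfl
    | succ i ih => rw [h1]; exact ih
    | pred i ih =>
      rw [← ih, ← h1 (-(i:ℤ) - 1) j, sub_add_cancel]
  have h4 : ∀ j, f 0 j = f 0 0 := by
    intro j
    induction j using Int.induction_on with
    | zero => rfl
    | succ i ih => rw [h2]; exact ih
    | pred i ih =>
      rw [← ih, ← h2 0 (-(i:ℤ) - 1), sub_add_cancel]
  intro i j
  rw [h3, h4]

end liouville

section kernel

/-- The decay rate of the mode `φ`. -/
noncomputable def rh (φ : ℝ) : ℝ := Real.cos φ / (1 + |Real.sin φ|)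

theorem rh_cont : Continuous rh := by
  unfold rh
  refine Real.continuous_cos.div (continuous_const.add Real.continuous_sin.abs) fun φ => ?_
  positivity

theorem sin_nn {φ : ℝ} (h : φ ∈ Set.uIcc 0 (Real.pi / 2)) : 0 ≤ Real.sin φ ∧ 0 ≤ Real.cos φ := by
  have hp := Real.pi_pos
  rw [Set.uIcc_of_le (by linarith)] at h
  exact ⟨Real.sin_nonneg_of_nonneg_of_le_pi h.1 (by linarith [h.2]),
    Real.cos_nonneg_of_mem_Icc ⟨by linarith [h.1], h.2⟩⟩

theorem rh_one {φ : ℝ} (h : φ ∈ Set.uIcc 0 (Real.pi / 2)) :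
    rh φ * (1 + Real.sin φ) = Real.cos φ := by
  have hs := (sin_nn h).1
  unfold rh
  rw [abs_of_nonneg hs]
  field_simp

theorem rh_two {φ : ℝ} (h : φ ∈ Set.uIcc 0 (Real.pi / 2)) :
    rh φ * Real.cos φ = 1 - Real.sin φ := by
  have hs := (sin_nn h).1
  have h1 := rh_one h
  have h2 := Real.sin_sq_add_cos_sq φ
  have h3 : 0 < 1 + Real.sin φ := by linarith
  have : (rh φ * Real.cos φ) * (1 + Real.sin φ) = (1 - Real.sin φ) * (1 + Real.sin φ) := by
    linear_combination Real.cos φ * h1 + h2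
  exact mul_right_cancel₀ h3.ne' this

theorem rh_mem {φ : ℝ} (h : φ ∈ Set.uIcc 0 (Real.pi / 2)) : 0 ≤ rh φ ∧ rh φ ≤ 1 := by
  obtain ⟨hs, hc⟩ := sin_nn h
  unfold rh
  rw [abs_of_nonneg hs]
  refine ⟨by positivity, ?_⟩
  rw [div_le_one (by linarith)]
  linarith [Real.cos_le_one φ]

/-- The solution with diagonal value `δ₀`. -/
noncomputable def a0 (i : ℤ) (k : ℕ) : ℝ :=
  2 / Real.pi * ∫ φ in (0:ℝ)..(Real.pi / 2), Real.cos ((2 * i + k) * φ) * rh φ ^ k

/-- The conjugate of `a0`. -/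
noncomputable def d0 (i : ℤ) (k : ℕ) : ℝ :=
  -(2 / Real.pi * ∫ φ in (0:ℝ)..(Real.pi / 2), Real.sin ((2 * i + k + 1) * φ) * rh φ ^ k)

theorem cont_c (c : ℝ) (k : ℕ) : Continuous fun φ : ℝ => Real.cos (c * φ) * rh φ ^ k :=
  (Real.continuous_cos.comp (continuous_const.mul continuous_id)).mul (rh_cont.pow k)

theorem cont_s (c : ℝ) (k : ℕ) : Continuous fun φ : ℝ => Real.sin (c * φ) * rh φ ^ k :=
  (Real.continuous_sin.comp (continuous_const.mul continuous_id)).mul (rh_cont.pow k)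

theorem ad_CR1 (i : ℤ) (k : ℕ) : d0 i k - d0 i (k + 1) = a0 (i + 1) k - a0 i (k + 1) := by
  unfold a0 d0
  have h1 : (∫ φ in (0:ℝ)..(Real.pi / 2), Real.cos ((2 * ((i + 1 : ℤ) : ℝ) + k) * φ) * rh φ ^ k) -
      ∫ φ in (0:ℝ)..(Real.pi / 2), Real.cos ((2 * i + ((k + 1 : ℕ) : ℝ)) * φ) * rh φ ^ (k + 1) =
      (∫ φ in (0:ℝ)..(Real.pi / 2), Real.sin ((2 * i + ((k + 1 : ℕ) : ℝ) + 1) * φ) * rh φ ^ (k + 1)) -
      ∫ φ in (0:ℝ)..(Real.pi / 2), Real.sin ((2 * i + k + 1) * φ) * rh φ ^ k := by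
    rw [← integral_sub ((cont_c _ _).intervalIntegrable _ _) ((cont_c _ _).intervalIntegrable _ _),
      ← integral_sub ((cont_s _ _).intervalIntegrable _ _) ((cont_s _ _).intervalIntegrable _ _)]
    refine integral_congr fun φ hφ => ?_
    have e1 := rh_one hφ
    have e2 := rh_two hφ
    push_cast
    have t1 : (2 * ((i:ℝ) + 1) + k) * φ = (2 * i + k + 1) * φ + φ := by ring
    have t2 : (2 * (i:ℝ) + (k + 1)) * φ = (2 * i + k + 1) * φ := by ring
    have t3 : (2 * (i:ℝ) + (k + 1) + 1) * φ = (2 * i + k + 1) * φ + φ := by ring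
    rw [t1, t2, t3, Real.cos_add, Real.sin_add, pow_succ]
    linear_combination (-(rh φ ^ k * Real.cos ((2 * i + k + 1) * φ))) * e1 -
      (rh φ ^ k * Real.sin ((2 * i + k + 1) * φ)) * e2
  linear_combination (-(2 / Real.pi)) * h1

theorem ad_CR2 (i : ℤ) (k : ℕ) :
    d0 (i + 1) k - d0 i (k + 1) = a0 (i + 1) (k + 1) - a0 (i + 1) k := by
  unfold a0 d0
  have h1 : (∫ φ in (0:ℝ)..(Real.pi / 2),
        Real.cos ((2 * ((i + 1 : ℤ) : ℝ) + ((k + 1 : ℕ) : ℝ)) * φ) * rh φ ^ (k + 1)) -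
      ∫ φ in (0:ℝ)..(Real.pi / 2), Real.cos ((2 * ((i + 1 : ℤ) : ℝ) + k) * φ) * rh φ ^ k =
      (∫ φ in (0:ℝ)..(Real.pi / 2), Real.sin ((2 * i + ((k + 1 : ℕ) : ℝ) + 1) * φ) * rh φ ^ (k + 1)) -
      ∫ φ in (0:ℝ)..(Real.pi / 2), Real.sin ((2 * ((i + 1 : ℤ) : ℝ) + k + 1) * φ) * rh φ ^ k := by
    rw [← integral_sub ((cont_c _ _).intervalIntegrable _ _) ((cont_c _ _).intervalIntegrable _ _),
      ← integral_sub ((cont_s _ _).intervalIntegrable _ _) ((cont_s _ _).intervalIntegrable _ _)]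
    refine integral_congr fun φ hφ => ?_
    have e1 := rh_one hφ
    have e2 := rh_two hφ
    push_cast
    have t1 : (2 * ((i:ℝ) + 1) + (k + 1)) * φ = (2 * i + k + 2) * φ + φ := by ring
    have t2 : (2 * ((i:ℝ) + 1) + k) * φ = (2 * i + k + 2) * φ := by ring
    have t3 : (2 * (i:ℝ) + (k + 1) + 1) * φ = (2 * i + k + 2) * φ := by ring
    have t4 : (2 * ((i:ℝ) + 1) + k + 1) * φ = (2 * i + k + 2) * φ + φ := by ring
    rw [t1, t2, t3, t4, Real.cos_add, Real.sin_add, pow_succ]
    linear_combination (-(rh φ ^ k * Real.sin ((2 * i + k + 2) * φ))) * e1 +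
      (rh φ ^ k * Real.cos ((2 * i + k + 2) * φ)) * e2
  linear_combination (-(2 / Real.pi)) * h1

theorem a0_bound (i : ℤ) (k : ℕ) : |a0 i k| ≤ 1 := by
  unfold a0
  have hp := Real.pi_pos
  have h : ‖∫ φ in (0:ℝ)..(Real.pi / 2), Real.cos ((2 * i + k) * φ) * rh φ ^ k‖ ≤
      1 * |Real.pi / 2 - 0| := by
    refine norm_integral_le_of_norm_le_const fun φ hφ => ?_
    have hφ' : φ ∈ Set.uIcc 0 (Real.pi / 2) := Set.uIoc_subset_uIcc hφ
    obtain ⟨h1, h2⟩ := rh_mem hφ'
    rw [norm_mul, norm_pow, Real.norm_eq_abs, Real.norm_eq_abs, abs_of_nonneg h1]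
    exact mul_le_one₀ (Real.abs_cos_le_one _) (by positivity) (pow_le_one₀ h1 h2)
  rw [Real.norm_eq_abs, one_mul, sub_zero, abs_of_pos (by positivity : (0:ℝ) < Real.pi / 2)] at h
  rw [abs_mul, abs_of_pos (by positivity)]
  calc 2 / Real.pi * |∫ φ in (0:ℝ)..(Real.pi / 2), Real.cos ((2 * i + k) * φ) * rh φ ^ k|
      ≤ 2 / Real.pi * (Real.pi / 2) := by gcongr
    _ = 1 := by field_simp

theorem d0_bound (i : ℤ) (k : ℕ) : |d0 i k| ≤ 1 := by
  unfold d0
  have hp := Real.pi_pos
  have h : ‖∫ φ in (0:ℝ)..(Real.pi / 2), Real.sin ((2 * i + k + 1) * φ) * rh φ ^ k‖ ≤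
      1 * |Real.pi / 2 - 0| := by
    refine norm_integral_le_of_norm_le_const fun φ hφ => ?_
    have hφ' : φ ∈ Set.uIcc 0 (Real.pi / 2) := Set.uIoc_subset_uIcc hφ
    obtain ⟨h1, h2⟩ := rh_mem hφ'
    rw [norm_mul, norm_pow, Real.norm_eq_abs, Real.norm_eq_abs, abs_of_nonneg h1]
    exact mul_le_one₀ (Real.abs_sin_le_one _) (by positivity) (pow_le_one₀ h1 h2)
  rw [Real.norm_eq_abs, one_mul, sub_zero, abs_of_pos (by positivity : (0:ℝ) < Real.pi / 2)] at h
  rw [abs_neg, abs_mul, abs_of_pos (by positivity)]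
  calc 2 / Real.pi * |∫ φ in (0:ℝ)..(Real.pi / 2), Real.sin ((2 * i + k + 1) * φ) * rh φ ^ k|
      ≤ 2 / Real.pi * (Real.pi / 2) := by gcongr
    _ = 1 := by field_simp

theorem a0_zero (i : ℤ) : a0 i 0 = if i = 0 then 1 else 0 := by
  unfold a0
  have hp := Real.pi_pos
  simp only [Nat.cast_zero, add_zero, pow_zero, mul_one]
  split_ifs with h
  · subst h
    simp
  · have hi : (2 * (i:ℝ)) ≠ 0 := by
      have : (i:ℝ) ≠ 0 := by exact_mod_cast h
      positivity
    rw [integral_comp_mul_left (fun x => Real.cos x) hi, integral_cos]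
    have : 2 * (i:ℝ) * (Real.pi / 2) = i * Real.pi := by ring
    rw [this, Real.sin_int_mul_pi]
    simp

theorem d0_zero (i : ℤ) : d0 i 0 = -(1 / Real.pi * (1 / (i + 1 / 2))) := by
  unfold d0
  have hp := Real.pi_pos
  simp only [Nat.cast_zero, add_zero, pow_zero, mul_one]
  have hi : (2 * (i:ℝ) + 1) ≠ 0 := by
    intro h
    have : 2 * i + 1 = 0 := by exact_mod_cast h
    lia
  rw [integral_comp_mul_left (fun x => Real.sin x) hi, integral_sin]
  have : (2 * (i:ℝ) + 1) * (Real.pi / 2) = i * Real.pi + Real.pi / 2 := by ring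
  rw [this, Real.cos_add_pi_div_two, Real.sin_int_mul_pi]
  simp only [mul_zero, Real.cos_zero, smul_eq_mul, neg_zero, sub_zero, mul_one]
  have h2 : (i:ℝ) + 1 / 2 ≠ 0 := by
    intro h
    apply hi
    linarith
  field_simp

end kernel

section half

variable {A D : ℤ → ℕ → ℝ}

theorem harmonic_of_CR (h1 : ∀ i k, D i k - D i (k + 1) = A (i + 1) k - A i (k + 1))
    (h2 : ∀ i k, D (i + 1) k - D i (k + 1) = A (i + 1) (k + 1) - A (i + 1) k) (i : ℤ) (k : ℕ) :
    A (i + 1) k + A (i - 1) (k + 2) + A i (k + 2) + A i k = 4 * A i (k + 1) := by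
  have e1 := h1 i k
  have e2 := h1 (i - 1) (k + 1)
  have e3 := h2 (i - 1) (k + 1)
  have e4 := h2 (i - 1) k
  rw [sub_add_cancel] at e2 e3 e4
  linarith

/-- The half-plane problem. -/
theorem half_plane {B : ℝ} (hA : ∀ i k, |A i k| ≤ B)
    (h1 : ∀ i k, D i k - D i (k + 1) = A (i + 1) k - A i (k + 1))
    (h2 : ∀ i k, D (i + 1) k - D i (k + 1) = A (i + 1) (k + 1) - A (i + 1) k)
    (I : Finset ℤ) (hI : ∀ i, i ∉ I → A i 0 = 0) :
    ∃ κ : ℝ, ∀ k, D k 0 = κ - 1 / Real.pi * ∑ l ∈ I, A l 0 * (1 / ((k - l : ℤ) + 1 / 2)) := by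
  set A' : ℤ → ℕ → ℝ := fun i k => A i k - ∑ l ∈ I, A l 0 * a0 (i - l) k with hA'
  set D' : ℤ → ℕ → ℝ := fun i k => D i k - ∑ l ∈ I, A l 0 * d0 (i - l) k with hD'
  have h1' : ∀ i k, D' i k - D' i (k + 1) = A' (i + 1) k - A' i (k + 1) := by
    intro i k
    have hs : ∑ l ∈ I, A l 0 * d0 (i - l) k - ∑ l ∈ I, A l 0 * d0 (i - l) (k + 1) =
        ∑ l ∈ I, A l 0 * a0 (i + 1 - l) k - ∑ l ∈ I, A l 0 * a0 (i - l) (k + 1) := by
      rw [← sum_sub_distrib, ← sum_sub_distrib]
      refine sum_congr rfl fun l _ => ?_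
      rw [← mul_sub, ← mul_sub, ad_CR1, show i - l + 1 = i + 1 - l by ring]
    simp only [hA', hD']
    linarith [h1 i k]
  have h2' : ∀ i k, D' (i + 1) k - D' i (k + 1) = A' (i + 1) (k + 1) - A' (i + 1) k := by
    intro i k
    have hs : ∑ l ∈ I, A l 0 * d0 (i + 1 - l) k - ∑ l ∈ I, A l 0 * d0 (i - l) (k + 1) =
        ∑ l ∈ I, A l 0 * a0 (i + 1 - l) (k + 1) - ∑ l ∈ I, A l 0 * a0 (i + 1 - l) k := by
      rw [← sum_sub_distrib, ← sum_sub_distrib]
      refine sum_congr rfl fun l _ => ?_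
      rw [← mul_sub, ← mul_sub, show i + 1 - l = i - l + 1 by ring, ad_CR2]
    simp only [hA', hD']
    linarith [h2 i k]
  have hdiag : ∀ i, A' i 0 = 0 := by
    intro i
    simp only [hA']
    have : ∑ l ∈ I, A l 0 * a0 (i - l) 0 = if i ∈ I then A i 0 else 0 := by
      rw [← sum_ite_eq I i (fun l => A l 0)]
      refine sum_congr rfl fun l _ => ?_
      rw [a0_zero]
      by_cases h : i = l
      · rw [if_pos (by lia), if_pos h, mul_one]
      · rw [if_neg (by lia), if_neg h, mul_zero]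
    rw [this]
    split_ifs with h
    · simp
    · rw [hI i h]; simp
  have hbd : ∀ i k, |A' i k| ≤ B + ∑ l ∈ I, |A l 0| := by
    intro i k
    simp only [hA']
    refine (abs_sub _ _).trans (add_le_add (hA i k) ((abs_sum_le_sum_abs _ _).trans ?_))
    refine sum_le_sum fun l _ => ?_
    rw [abs_mul]
    exact mul_le_of_le_one_right (abs_nonneg _) (a0_bound _ _)
  have hharm := harmonic_of_CR h1' h2'
  -- odd reflection
  set f : ℤ → ℤ → ℝ := fun i j => if i ≤ j then A' i (j - i).toNat else - A' j (i - j).toNat with hf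
  have hf1 : ∀ (i : ℤ) (k : ℕ), f i (i + k) = A' i k := by
    intro i k
    simp only [hf]
    rw [if_pos (by lia)]
    congr 1
    lia
  have hf2 : ∀ (i : ℤ) (k : ℕ), f (i + k) i = - A' i k := by
    intro i k
    simp only [hf]
    split_ifs with h
    · have hk : k = 0 := by lia
      subst hk
      simp only [Nat.cast_zero, add_zero, sub_self, Int.toNat_zero]
      rw [hdiag]; simp
    · congr 2
      lia
  have hfb : ∀ i j, |f i j| ≤ B + ∑ l ∈ I, |A l 0| := by
    intro i j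
    simp only [hf]
    split_ifs
    · exact hbd _ _
    · rw [abs_neg]; exact hbd _ _
  have hfh : ∀ i j, f (i + 1) j + f (i - 1) j + f i (j + 1) + f i (j - 1) = 4 * f i j := by
    intro i j
    rcases lt_trichotomy i j with h | h | h
    · obtain ⟨k, rfl⟩ : ∃ k : ℕ, j = i + (k + 1 : ℕ) := ⟨(j - i - 1).toNat, by lia⟩
      rw [hf1]
      have e1 : f (i + 1) (i + (k + 1 : ℕ)) = A' (i + 1) k := by
        rw [← hf1]; congr 1; push_cast; ring
      have e2 : f (i - 1) (i + (k + 1 : ℕ)) = A' (i - 1) (k + 2) := by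
        rw [← hf1]; congr 1; push_cast; ring
      have e3 : f i (i + (k + 1 : ℕ) + 1) = A' i (k + 2) := by
        rw [← hf1]; congr 1; push_cast; ring
      have e4 : f i (i + (k + 1 : ℕ) - 1) = A' i k := by
        rw [← hf1]; congr 1; push_cast; ring
      rw [e1, e2, e3, e4]
      exact hharm i k
    · subst h
      have e1 : f (i + 1) i = - A' i 1 := by
        have := hf2 i 1
        simpa using this
      have e2 : f (i - 1) i = A' (i - 1) 1 := by
        have := hf1 (i - 1) 1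
        simpa using this
      have e3 : f i (i + 1) = A' i 1 := by
        have := hf1 i 1
        simpa using this
      have e4 : f i (i - 1) = - A' (i - 1) 1 := by
        have := hf2 (i - 1) 1
        simpa using this
      have e5 : f i i = 0 := by
        have := hf1 i 0
        simpa [hdiag] using this
      rw [e1, e2, e3, e4, e5]
      ring
    · obtain ⟨k, rfl⟩ : ∃ k : ℕ, i = j + (k + 1 : ℕ) := ⟨(i - j - 1).toNat, by lia⟩
      rw [hf2]
      have e1 : f (j + (k + 1 : ℕ)) (j + 1) = - A' (j + 1) k := by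
        rw [← hf2]; congr 1; push_cast; ring
      have e2 : f (j + (k + 1 : ℕ)) (j - 1) = - A' (j - 1) (k + 2) := by
        rw [← hf2]; congr 1; push_cast; ring
      have e3 : f (j + (k + 1 : ℕ) + 1) j = - A' j (k + 2) := by
        rw [← hf2]; congr 1; push_cast; ring
      have e4 : f (j + (k + 1 : ℕ) - 1) j = - A' j k := by
        rw [← hf2]; congr 1; push_cast; ring
      rw [e1, e2, e3, e4]
      linarith [hharm j k]
  have hconst := liouville hfb hfh
  have hA0 : ∀ i k, A' i k = 0 := by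
    intro i k
    rw [← hf1, hconst, ← hconst 0 0]
    have := hf1 0 0
    rw [hdiag] at this
    simpa using this
  have hDc1 : ∀ i k, D' i (k + 1) = D' i k := by
    intro i k
    have := h1' i k
    rw [hA0, hA0] at this
    linarith
  have hDc2 : ∀ i k, D' (i + 1) k = D' i (k + 1) := by
    intro i k
    have := h2' i k
    rw [hA0, hA0] at this
    linarith
  have hDc : ∀ i, D' i 0 = D' 0 0 := by
    have hstep : ∀ i, D' (i + 1) 0 = D' i 0 := fun i => by rw [hDc2, hDc1]
    intro i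
    induction i using Int.induction_on with
    | zero => rfl
    | succ i ih => rw [hstep]; exact ih
    | pred i ih => rw [← ih, ← hstep (-(i:ℤ) - 1), sub_add_cancel]
  refine ⟨D' 0 0, fun k => ?_⟩
  have := hDc k
  simp only [hD'] at this ⊢
  rw [← this, mul_sum]
  have : ∑ l ∈ I, A l 0 * d0 (k - l) 0 =
      - ∑ l ∈ I, 1 / Real.pi * (A l 0 * (1 / ((k - l : ℤ) + 1 / 2))) := by
    rw [← sum_neg_distrib]
    refine sum_congr rfl fun l _ => ?_
    rw [d0_zero]
    ring
  rw [this]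
  ring

end half

end Vale.Agent.P144
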