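import Vale.Agent.P144.U.Rel
import Vale.Agent.P144.U.Half
import Vale.Agent.P144.U.Cauchy

/-!
The exact diagonal two-point function of the free critical model in large boxes.
-/

namespace Vale.Agent.P144

open Finset Filter Topology

section ultra

/-- The limit along an ultrafilter. -/
noncomputable def ul (U : Ultrafilter ℕ) (f : ℕ → ℝ) : ℝ := limUnder (U : Filter ℕ) f

theorem ul_tendsto {U : Ultrafilter ℕ} (hU : (U : Filter ℕ) ≤ atTop) {f : ℕ → ℝ}
    (hf : ∀ᶠ M in atTop, |f M| ≤ 1) : Tendsto f U (𝓝 (ul U f)) := by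
  have h : ∃ x, Tendsto f U (𝓝 x) := by
    have hc : IsCompact (Set.Icc (-1:ℝ) 1) := isCompact_Icc
    have hm : ((U.map f : Ultrafilter ℝ) : Filter ℝ) ≤ 𝓟 (Set.Icc (-1:ℝ) 1) := by
      rw [le_principal_iff, Ultrafilter.coe_map, Filter.mem_map]
      exact hU (hf.mono fun M hM => abs_le.1 hM)
    obtain ⟨x, _, hx⟩ := hc.ultrafilter_le_nhds (U.map f) hm
    exact ⟨x, hx⟩
  exact tendsto_nhds_limUnder h

theorem ul_eq {U : Ultrafilter ℕ} {f : ℕ → ℝ} {x : ℝ} (h : Tendsto f U (𝓝 x)) : ul U f = x :=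
  h.limUnder_eq

theorem ul_congr {U : Ultrafilter ℕ} (hU : (U : Filter ℕ) ≤ atTop) {f g : ℕ → ℝ}
    (h : ∀ᶠ M in atTop, f M = g M) (hf : ∀ᶠ M in atTop, |f M| ≤ 1) : ul U f = ul U g := by
  have h1 := ul_tendsto hU hf
  exact (ul_eq (h1.congr' (hU h))).symm

theorem ul_bound {U : Ultrafilter ℕ} (hU : (U : Filter ℕ) ≤ atTop) {f : ℕ → ℝ}
    (hf : ∀ᶠ M in atTop, |f M| ≤ 1) : |ul U f| ≤ 1 :=
  le_of_tendsto (ul_tendsto hU hf).abs (hU hf)

theorem ev_box (x : Site) : ∀ᶠ M : ℕ in atTop, x ∈ box M := by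
  filter_upwards [eventually_ge_atTop (x.1.natAbs + x.2.natAbs)] with M hM
  rw [mem_box]
  lia

end ultra

section limits

variable {U : Ultrafilter ℕ}

/-- Limit of the two-point function. -/
noncomputable def SL (U : Ultrafilter ℕ) (m n : ℤ) : ℝ := ul U fun M => SS M m n

/-- Limit of the disorder correlation. -/
noncomputable def ML (U : Ultrafilter ℕ) (m n : ℤ) : ℝ := ul U fun M => MU M m n

/-- Limit of the function with two spins and two disorders. -/
noncomputable def XL (U : Ultrafilter ℕ) (n i j : ℤ) (p q : Site) : ℝ := ul U fun M => XX M n i j p q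

theorem XX_ev (n i j : ℤ) (p q : Site) : ∀ᶠ M in atTop, |XX M n i j p q| ≤ 1 := by
  filter_upwards [ev_box p, ev_box q] with M h1 h2
  exact XX_bound h1 h2

theorem SS_ev (m n : ℤ) : ∀ᶠ M in atTop, |SS M m n| ≤ 1 := by
  filter_upwards [ev_box (m, m), ev_box (n, n)] with M h1 h2
  exact SS_bound h1 h2

theorem XL_t (hU : (U : Filter ℕ) ≤ atTop) (n i j : ℤ) (p q : Site) :
    Tendsto (fun M => XX M n i j p q) U (𝓝 (XL U n i j p q)) := ul_tendsto hU (XX_ev n i j p q)

theorem XL_CR1 (hU : (U : Filter ℕ) ≤ atTop) {n i j m : ℤ} (hij : i ≤ j) :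
    XL U n i j (i + 1, j + 1) (m, m) - XL U n i (j + 1) (i + 1, j + 2) (m, m) =
      XL U n (i + 1) (j + 1) (i + 1, j + 1) (m, m) - XL U n i (j + 1) (i, j + 1) (m, m) := by
  have h1 := (XL_t hU n i j (i + 1, j + 1) (m, m)).sub (XL_t hU n i (j + 1) (i + 1, j + 2) (m, m))
  have h2 := (XL_t hU n (i + 1) (j + 1) (i + 1, j + 1) (m, m)).sub
    (XL_t hU n i (j + 1) (i, j + 1) (m, m))
  refine tendsto_nhds_unique h1 (h2.congr' ?_)
  refine hU ?_
  filter_upwards [ev_box (i, j + 1), ev_box (i + 1, j + 1), ev_box (i + 1, j + 1 + 1),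
    ev_box (m, m)] with M b1 b2 b3 b4
  have e1 := (XX_V (n := n) hij b1 b2 (m, m)).2
  have e2 := XX_H (n := n) (i := i) (j := j + 1) b2 b3 b4 (by simp only; lia)
  have e3 : ((i + 1, j + 2) : Site) = (i + 1, j + 1 + 1) := by ext <;> simp <;> ring
  rw [e3]
  linear_combination -e1 + e2.2 - √2 * e2.1 - XX M n (i + 1) (j + 1) (i + 1, j + 1) (m, m) * sqrt2_sq

theorem XL_CR2 (hU : (U : Filter ℕ) ≤ atTop) {n i j m : ℤ} (hij : i + 1 ≤ j) :
    XL U n (i + 1) j (i + 2, j + 1) (m, m) - XL U n i j (i + 1, j + 1) (m, m) =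
      XL U n (i + 1) (j + 1) (i + 1, j + 1) (m, m) - XL U n (i + 1) j (i + 1, j) (m, m) := by
  have h1 := (XL_t hU n (i + 1) j (i + 2, j + 1) (m, m)).sub (XL_t hU n i j (i + 1, j + 1) (m, m))
  have h2 := (XL_t hU n (i + 1) (j + 1) (i + 1, j + 1) (m, m)).sub
    (XL_t hU n (i + 1) j (i + 1, j) (m, m))
  refine tendsto_nhds_unique h1 (h2.congr' ?_)
  refine hU ?_
  filter_upwards [ev_box (i + 1, j), ev_box (i + 1, j + 1), ev_box (i + 1 + 1, j + 1),
    ev_box (m, m)] with M b1 b2 b3 b4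
  have e1 := XX_V (n := n) hij b2 b3 (m, m)
  have e2 := (XX_H (n := n) (i := i) (j := j) b1 b2 b4 (by simp only; lia)).2
  have e3 : ((i + 2, j + 1) : Site) = (i + 1 + 1, j + 1) := by ext <;> simp <;> ring
  rw [e3]
  linear_combination -e1.2 + e2 - √2 * e1.1 - XX M n (i + 1) (j + 1) (i + 1, j + 1) (m, m) * sqrt2_sq

theorem half_apply (hU : (U : Filter ℕ) ≤ atTop) {m n : ℤ} (hmn : m ≤ n) :
    ∃ κ : ℝ, ∀ k, XL U n k k (k + 1, k + 1) (m, m) = κ - 1 / Real.pi *
      ∑ l ∈ Finset.Icc m n, XL U n l l (l, l) (m, m) * (1 / ((k - l : ℤ) + 1 / 2)) := by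
  have h := half_plane (A := fun i k => XL U n i (i + k) (i, i + k) (m, m))
    (D := fun i k => XL U n i (i + k) (i + 1, i + k + 1) (m, m)) (B := 1)
    (fun i k => ul_bound hU (XX_ev _ _ _ _ _)) ?_ ?_ (Finset.Icc m n) ?_
  · obtain ⟨κ, hκ⟩ := h
    refine ⟨κ, fun k => ?_⟩
    have := hκ k
    simpa using this
  · intro i k
    have := XL_CR1 hU (n := n) (m := m) (show i ≤ i + k by lia)
    have e1 : i + (k:ℤ) + 1 = i + ((k + 1 : ℕ) : ℤ) := by push_cast; ring
    have e2 : i + (k:ℤ) + 2 = i + ((k + 1 : ℕ) : ℤ) + 1 := by push_cast; ring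
    have e3 : i + 1 + (k:ℤ) = i + ((k + 1 : ℕ) : ℤ) := by push_cast; ring
    rw [e3, ← e1]
    rw [show i + (k:ℤ) + 1 + 1 = i + k + 2 by ring]
    exact this
  · intro i k
    have := XL_CR2 hU (n := n) (m := m) (show i + 1 ≤ i + k + 1 by lia)
    have e1 : i + (k:ℤ) + 1 = i + ((k + 1 : ℕ) : ℤ) := by push_cast; ring
    have e3 : i + 1 + (k:ℤ) = i + k + 1 := by ring
    have e4 : i + 1 + ((k + 1 : ℕ) : ℤ) = i + k + 1 + 1 := by push_cast; ring
    rw [e3, ← e1, e4, show i + 1 + 1 = i + 2 by ring]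
    exact this
  · intro i hi
    simp only [Nat.cast_zero, add_zero]
    rw [Finset.mem_Icc] at hi
    refine ul_eq (tendsto_const_nhds.congr' (hU ?_))
    filter_upwards [ev_box (i, i), ev_box (m, m)] with M b1 b2
    exact (XX_refl_A hmn (by lia) b1 b2).symm

theorem XL_D_zero (hU : (U : Filter ℕ) ≤ atTop) {m n k : ℤ} (h1 : m ≤ k) (h2 : k < n) :
    XL U n k k (k + 1, k + 1) (m, m) = 0 := by
  refine ul_eq (tendsto_const_nhds.congr' (hU ?_))
  filter_upwards [ev_box (k + 1, k + 1), ev_box (m, m)] with M b1 b2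
  exact (XX_refl_D h1 h2 b1 b2).symm

theorem XL_A_n (hU : (U : Filter ℕ) ≤ atTop) {m n : ℤ} (h1 : m ≤ n) :
    XL U n n n (n, n) (m, m) = SL U m n := by
  refine ul_congr hU ?_ (XX_ev _ _ _ _ _)
  filter_upwards [ev_box (n, n), ev_box (m, m)] with M b1 b2
  rw [XX_n b1 b2, if_pos le_rfl, if_pos h1]
  unfold SS
  rw [N2_comm]
  ring

theorem XL_D_n (hU : (U : Filter ℕ) ≤ atTop) {m n : ℤ} (h1 : m ≤ n) :
    XL U n n n (n + 1, n + 1) (m, m) = - SL U m (n + 1) := by
  have : - SL U m (n + 1) = ul U fun M => - SS M m (n + 1) :=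
    (ul_eq (ul_tendsto hU (SS_ev m (n + 1))).neg).symm
  rw [this]
  refine ul_congr hU ?_ (XX_ev _ _ _ _ _)
  filter_upwards [ev_box (n + 1, n + 1), ev_box (m, m)] with M b1 b2
  rw [XX_n b1 b2, if_neg (by simp), if_pos h1]
  unfold SS
  rw [N2_comm]
  ring

theorem XL_A_m (m n : ℤ) : XL U n m m (m, m) (m, m) = ML U m n := by
  unfold XL ML
  congr 1
  funext M
  exact XX_self' M m n (m, m)

theorem XL_D_m (m n : ℤ) : XL U n (m - 1) (m - 1) (m - 1 + 1, m - 1 + 1) (m, m) = ML U (m - 1) n := by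
  unfold XL ML
  congr 1
  funext M
  rw [sub_add_cancel]
  exact XX_self' M (m - 1) n (m, m)

theorem SL_symm (m n : ℤ) : SL U m n = SL U (-n) (-m) := by
  unfold SL
  congr 1
  funext M
  exact SS_symm M m n

theorem ML_symm (m n : ℤ) : ML U m n = ML U (-n - 1) (-m - 1) := by
  unfold ML
  congr 1
  funext M
  exact MU_symm M m n

theorem SL_bound (hU : (U : Filter ℕ) ≤ atTop) (m n : ℤ) : |SL U m n| ≤ 1 := ul_bound hU (SS_ev m n)

theorem ML_bound (hU : (U : Filter ℕ) ≤ atTop) (m n : ℤ) : |ML U m n| ≤ 1 :=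
  ul_bound hU (XX_ev _ _ _ _ _)

theorem SL_self (m : ℤ) : SL U m m = 1 := by
  unfold SL
  refine ul_eq (tendsto_const_nhds.congr fun M => ?_)
  unfold SS
  rw [N2_one_self, div_self (ZZ_pos _).ne']

/-- The relations between the four end values. -/
theorem rec_step (hU : (U : Filter ℕ) ≤ atTop) (m : ℤ) (N : ℕ) :
    ∃ a β : ℝ, ML U m (m + N) * N.factorial = -(hh N * β) ∧
      SL U m (m + N) * N.factorial = -(hh N * (a * N + β)) ∧
      Real.pi * ML U (m - 1) (m + N) * hh (N + 1) = -((β - a / 2) * N.factorial) ∧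
      Real.pi * SL U m (m + N + 1) * hh (N + 1) = -((a * (N + 1 / 2) + β) * N.factorial) := by
  set n : ℤ := m + N with hn
  have hmn : m ≤ n := by lia
  obtain ⟨κ, hκ⟩ := half_apply hU hmn
  have hp := Real.pi_pos
  set x : ℕ → ℝ := fun l => XL U n (m + l) (m + l) (m + l, m + l) (m, m) with hx
  have hsum : ∀ t : ℤ, ∑ l ∈ Finset.Icc m n, XL U n l l (l, l) (m, m) *
      (1 / ((m + t - l : ℤ) + 1 / 2)) = ∑ l ∈ range (N + 1), x l / ((t:ℝ) + 1 / 2 - l) := by
    intro t
    refine sum_nbij' (fun l => (l - m).toNat) (fun l => m + l) ?_ ?_ ?_ ?_ ?_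
    · intro l hl
      rw [Finset.mem_Icc] at hl
      rw [mem_range]; lia
    · intro l hl
      rw [mem_range] at hl
      rw [Finset.mem_Icc]; lia
    · intro l hl
      rw [Finset.mem_Icc] at hl
      lia
    · intro l _
      lia
    · intro l hl
      rw [Finset.mem_Icc] at hl
      simp only [hx]
      have e : m + ((l - m).toNat : ℤ) = l := by lia
      rw [e]
      have e2 : (((l - m).toNat : ℕ) : ℝ) = l - m := by
        have : (((l - m).toNat : ℤ) : ℝ) = ((l - m : ℤ) : ℝ) := by congr 1; lia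
        rw [Int.cast_natCast] at this
        rw [this]; push_cast; ring
      rw [e2]
      push_cast
      rw [mul_one_div]
      congr 1
      ring
  have hD : ∀ t : ℤ, Real.pi * XL U n (m + t) (m + t) (m + t + 1, m + t + 1) (m, m) =
      Real.pi * κ - ∑ l ∈ range (N + 1), x l / ((t:ℝ) + 1 / 2 - l) := by
    intro t
    rw [hκ, hsum, mul_sub, ← mul_assoc, mul_one_div_cancel hp.ne', one_mul]
  have hz : ∀ k < N, Real.pi * κ - ∑ l ∈ range (N + 1), x l / ((k:ℝ) + 1 / 2 - l) = 0 := by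
    intro k hk
    have := hD k
    rw [XL_D_zero hU (by lia) (by lia), mul_zero] at this
    rw [Int.cast_natCast] at this
    exact this.symm
  obtain ⟨β, h1, h2, h3, h4⟩ := cauchy_system N x (Real.pi * κ) hz
  refine ⟨Real.pi * κ, β, ?_, ?_, ?_, ?_⟩
  · rw [← XL_A_m (U := U)]
    simp only [hx, Nat.cast_zero, add_zero] at h1
    exact h1
  · rw [← XL_A_n hU hmn]
    exact h2
  · have := hD (-1)
    rw [← sub_eq_add_neg, XL_D_m] at this
    rw [this, ← h3]
    have e5 : ∑ l ∈ range (N + 1), x l / (((-1 : ℤ) : ℝ) + 1 / 2 - l) =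
        ∑ l ∈ range (N + 1), x l / (-1 / 2 - (l:ℝ)) := by
      refine sum_congr rfl fun l _ => ?_
      push_cast
      congr 1; ring
    rw [e5]
  · have := hD N
    rw [← hn, XL_D_n hU hmn, Int.cast_natCast] at this
    rw [← this] at h4
    linear_combination -h4

theorem wallis_hh (N : ℕ) : ((N.factorial : ℕ) : ℝ) ^ 2 = hh N ^ 2 * (Real.Wallis.W N * (2 * N + 1)) := by
  induction N with
  | zero => simp [hh, Real.Wallis.W]
  | succ N ih =>
    rw [Real.Wallis.W_succ, hh_succ, Nat.factorial_succ]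
    push_cast
    have h1 : (2 * (N:ℝ) + 1) ≠ 0 := by positivity
    have h3 : (2 * (N:ℝ) + 3) ≠ 0 := by positivity
    rw [mul_pow, ih]
    field_simp
    ring

theorem diff_step (hU : (U : Filter ℕ) ≤ atTop) (m : ℤ) {N : ℕ} (hN : 1 ≤ N) :
    (SL U m (m + N) - ML U m (m + N)) ^ 2 * ((N + 1) / N) ≤
      (SL U m (m + N + 1) - ML U (m - 1) (m + N)) ^ 2 := by
  obtain ⟨a, β, h1, h2, h3, h4⟩ := rec_step hU m N
  have hp := Real.pi_pos
  have hf : (0:ℝ) < (N.factorial : ℕ) := by exact_mod_cast N.factorial_pos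
  have hh0 := hh_pos N
  have hN0 : (0:ℝ) < N := by exact_mod_cast hN
  have hW := Real.Wallis.W_pos N
  set α := SL U m (m + N) - ML U m (m + N) with hα
  set b := SL U m (m + N + 1) - ML U (m - 1) (m + N) with hb
  have e1 : α * N.factorial = -(hh N * N * a) := by
    rw [hα]; linear_combination h2 - h1
  have e2 : Real.pi * b * (hh N * (N + 1 / 2)) = -(a * (N + 1) * N.factorial) := by
    rw [hb, ← hh_succ]; linear_combination h4 - h3
  -- b = ρ α
  have e3 : b = 2 * (N + 1) * Real.Wallis.W N / (Real.pi * N) * α := by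
    have ea : a = - (α * N.factorial) / (hh N * N) := by
      field_simp
      linarith [e1]
    rw [ea] at e2
    have e4 : Real.pi * b * (hh N * (N + 1 / 2)) =
        α * (N + 1) * ((N.factorial : ℝ) ^ 2) / (hh N * N) := by
      rw [e2]; field_simp
    rw [wallis_hh] at e4
    have hn : (0:ℝ) < (N:ℝ) + 1 / 2 := by positivity
    field_simp at e4 ⊢
    linear_combination e4
  rw [e3, mul_pow, mul_comm]
  refine mul_le_mul_of_nonneg_right ?_ (sq_nonneg _)
  have h7 := Real.Wallis.le_W N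
  have h8 : (2 * (N:ℝ) + 1) / (2 * N) ≤ 2 * (N + 1) * Real.Wallis.W N / (Real.pi * N) := by
    rw [div_le_div_iff₀ (by positivity) (by positivity)]
    have h9 : (2 * (N:ℝ) + 1) / (2 * N + 2) * (Real.pi / 2) * (2 * (N + 1) * (2 * N)) =
        (2 * N + 1) * (Real.pi * N) := by
      field_simp
    rw [← h9]
    calc (2 * (N:ℝ) + 1) / (2 * N + 2) * (Real.pi / 2) * (2 * (N + 1) * (2 * N))
        ≤ Real.Wallis.W N * (2 * (N + 1) * (2 * N)) := by gcongr
      _ = 2 * (N + 1) * Real.Wallis.W N * (2 * N) := by ring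
  calc ((N:ℝ) + 1) / N ≤ ((2 * (N:ℝ) + 1) / (2 * N)) ^ 2 := by
        rw [div_pow, div_le_div_iff₀ (by positivity) (by positivity)]
        nlinarith
    _ ≤ _ := by gcongr

theorem diff_bound (hU : (U : Filter ℕ) ≤ atTop) (L : ℕ) : ∀ (m : ℤ) (N : ℕ), 1 ≤ N →
    (SL U m (m + N) - ML U m (m + N)) ^ 2 * ((N + L) / N) ≤ 4 ∧
    (SL U m (m + N) - ML U (m - 1) (m + N - 1)) ^ 2 * ((N + L) / N) ≤ 4 := by
  have hb : ∀ m n m' n' : ℤ, (SL U m n - ML U m' n') ^ 2 ≤ 4 := by
    intro m n m' n'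
    have h1 := abs_le.1 (SL_bound hU m n)
    have h2 := abs_le.1 (ML_bound hU m' n')
    nlinarith
  induction L with
  | zero =>
    intro m N hN
    have hN0 : (N:ℝ) ≠ 0 := by positivity
    simp only [Nat.cast_zero, add_zero, div_self hN0, mul_one]
    exact ⟨hb _ _ _ _, hb _ _ _ _⟩
  | succ L ih =>
    intro m N hN
    have hN0 : (0:ℝ) < N := by exact_mod_cast hN
    have eL : ((N:ℝ) + ((L + 1 : ℕ) : ℝ)) / N = (N + 1) / N * ((((N + 1 : ℕ) : ℝ) + L) / ((N + 1 : ℕ) : ℝ)) := by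
      push_cast
      field_simp
      ring
    have hpos : (0:ℝ) ≤ (((N + 1 : ℕ) : ℝ) + L) / ((N + 1 : ℕ) : ℝ) := by positivity
    rw [eL, ← mul_assoc, ← mul_assoc]
    constructor
    · refine (mul_le_mul_of_nonneg_right (diff_step hU m hN) hpos).trans ?_
      have := (ih m (N + 1) (by lia)).2
      have e : m + ((N + 1 : ℕ) : ℤ) = m + N + 1 := by push_cast; ring
      rw [e, show m + (N:ℤ) + 1 - 1 = m + N by ring] at this
      exact this
    · have h1 := diff_step hU (-(m + N)) hN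
      rw [show -(m + (N:ℤ)) + N = -m by ring] at h1
      rw [SL_symm (-(m + (N:ℤ))) (-m), ML_symm (-(m + (N:ℤ))) (-m), SL_symm (-(m + (N:ℤ))) (-m + 1),
        ML_symm (-(m + (N:ℤ)) - 1) (-m)] at h1
      simp only [neg_neg] at h1
      rw [show -(-m + 1) = m - 1 by ring, show -(-(m + (N:ℤ)) - 1) - 1 = m + N by ring] at h1
      refine (mul_le_mul_of_nonneg_right h1 hpos).trans ?_
      have := (ih (m - 1) (N + 1) (by lia)).1
      have e : m - 1 + ((N + 1 : ℕ) : ℤ) = m + N := by push_cast; ring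
      rw [e] at this
      exact this

theorem diff_zero (hU : (U : Filter ℕ) ≤ atTop) (m : ℤ) {N : ℕ} (hN : 1 ≤ N) :
    SL U m (m + N) - ML U (m - 1) (m + N - 1) = 0 := by
  by_contra h
  have hpos : 0 < (SL U m (m + N) - ML U (m - 1) (m + N - 1)) ^ 2 := by positivity
  set c := (SL U m (m + N) - ML U (m - 1) (m + N - 1)) ^ 2 with hc
  have hN0 : (0:ℝ) < N := by exact_mod_cast hN
  obtain ⟨L, hL⟩ := exists_nat_gt (4 * N / c)
  have h1 := (diff_bound hU L m N hN).2
  rw [← hc] at h1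
  rw [div_lt_iff₀ hpos] at hL
  rw [mul_div_assoc', div_le_iff₀ hN0] at h1
  nlinarith

/-- The exact two-point function. -/
theorem SL_eq (hU : (U : Filter ℕ) ≤ atTop) (m : ℤ) (N : ℕ) : SL U m (m + N) = Dg N := by
  induction N with
  | zero => simp [SL_self, Dg]
  | succ N ih =>
    obtain ⟨a, β, h1, h2, h3, h4⟩ := rec_step hU m N
    have h5 := diff_zero hU m (N := N + 1) (by lia)
    have e : m + ((N + 1 : ℕ) : ℤ) = m + N + 1 := by push_cast; ring
    rw [e] at h5 ⊢
    rw [show m + (N:ℤ) + 1 - 1 = m + N by ring] at h5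
    have hp := Real.pi_pos
    have hf : (0:ℝ) < (N.factorial : ℕ) := by exact_mod_cast N.factorial_pos
    have hh0 := hh_pos N
    have ha : a = 0 := by
      have h6 : a * ((N + 1) * N.factorial) = 0 := by
        linear_combination h4 - h3 - Real.pi * hh (N + 1) * h5
      rcases mul_eq_zero.1 h6 with h | h
      · exact h
      · exact absurd h (by positivity)
    subst ha
    have hD : Dg (N + 1) = Dg N * (2 / Real.pi * Real.Wallis.W N) := by
      unfold Dg; rw [prod_range_succ]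
    rw [hD, ← ih]
    rw [hh_succ] at h4
    have h7 : Real.pi * SL U m (m + N + 1) * (hh N * (N + 1 / 2)) * hh N =
        SL U m (m + N) * (N.factorial : ℝ) ^ 2 := by
      linear_combination hh N * h4 - (N.factorial : ℝ) * h2
    rw [wallis_hh] at h7
    have hn : (0:ℝ) < (N:ℝ) + 1 / 2 := by positivity
    have h8 : (0:ℝ) < hh N ^ 2 * (N + 1 / 2) := by positivity
    have h9 : (hh N ^ 2 * (N + 1 / 2)) * (Real.pi * SL U m (m + N + 1)) =
        (hh N ^ 2 * (N + 1 / 2)) * (2 * Real.Wallis.W N * SL U m (m + N)) := by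
      linear_combination h7
    have h10 := mul_left_cancel₀ h8.ne' h9
    field_simp
    linarith

end limits

end Vale.Agent.P144
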