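import Vale.Agent.P144.U.Spec

/-!
The critical free nearest-neighbour model in a finite region with signs on the edges, written with
the linear weights `1 + t σσ'`, `t = √2 - 1`: gauge transformations, reflections, and the relation
at criticality that moves a sign.
-/

namespace Vale.Agent.P144

open Finset

/-- The critical high-temperature parameter. -/
noncomputable def tc : ℝ := √2 - 1

theorem tc_pos : 0 < tc := by
  have : (1:ℝ) < √2 := by
    rw [Real.lt_sqrt (by norm_num)]; norm_num
  unfold tc; linarith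

theorem tc_lt_one : tc < 1 := by
  have : √2 < 2 := by
    rw [Real.sqrt_lt' (by norm_num)]; norm_num
  unfold tc; linarith

theorem sqrt2_sq : √2 * √2 = 2 := Real.mul_self_sqrt (by norm_num)

/-- The spin of `x` in the configuration with plus set `T`. -/
def tv (T : Finset Site) (x : Site) : ℝ := if x ∈ T then 1 else -1

theorem tv_sq (T : Finset Site) (x : Site) : tv T x * tv T x = 1 := by
  unfold tv; split_ifs <;> norm_num

theorem tv_eq (T : Finset Site) (x : Site) : tv T x = 1 ∨ tv T x = -1 := by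
  unfold tv; split_ifs <;> simp

/-- Left ends of horizontal edges of `Λ`. -/
def hor (Λ : Finset Site) : Finset Site := Λ.filter fun x => (x.1 + 1, x.2) ∈ Λ

/-- Lower ends of vertical edges of `Λ`. -/
def ver (Λ : Finset Site) : Finset Site := Λ.filter fun x => (x.1, x.2 + 1) ∈ Λ

theorem mem_hor {Λ : Finset Site} {x : Site} : x ∈ hor Λ ↔ x ∈ Λ ∧ (x.1 + 1, x.2) ∈ Λ := by
  simp [hor]

theorem mem_ver {Λ : Finset Site} {x : Site} : x ∈ ver Λ ↔ x ∈ Λ ∧ (x.1, x.2 + 1) ∈ Λ := by
  simp [ver]

/-- The weight with signs `a` on horizontal and `b` on vertical edges. -/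
noncomputable def WW (Λ : Finset Site) (a b : Site → ℝ) (s : Site → ℝ) : ℝ :=
  (∏ x ∈ hor Λ, (1 + a x * tc * (s x * s (x.1 + 1, x.2)))) *
    ∏ x ∈ ver Λ, (1 + b x * tc * (s x * s (x.1, x.2 + 1)))

/-- The unnormalised two-point function. -/
noncomputable def N2 (Λ : Finset Site) (a b : Site → ℝ) (p q : Site) : ℝ :=
  ∑ T ∈ Λ.powerset, tv T p * tv T q * WW Λ a b (tv T)

theorem N2_comm (Λ : Finset Site) (a b : Site → ℝ) (p q : Site) :
    N2 Λ a b p q = N2 Λ a b q p := by
  unfold N2
  exact sum_congr rfl fun T _ => by ring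

theorem N2_self (Λ : Finset Site) (a b : Site → ℝ) (p q : Site) :
    N2 Λ a b p p = N2 Λ a b q q := by
  unfold N2
  exact sum_congr rfl fun T _ => by rw [tv_sq, tv_sq]

theorem WW_congr {Λ : Finset Site} {a b a' b' : Site → ℝ} {s s' : Site → ℝ}
    (ha : ∀ x ∈ hor Λ, a x * (s x * s (x.1 + 1, x.2)) = a' x * (s' x * s' (x.1 + 1, x.2)))
    (hb : ∀ x ∈ ver Λ, b x * (s x * s (x.1, x.2 + 1)) = b' x * (s' x * s' (x.1, x.2 + 1))) :
    WW Λ a b s = WW Λ a' b' s' := by
  unfold WW
  congr 1
  · refine prod_congr rfl fun x hx => ?_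
    have := ha x hx
    linear_combination tc * this
  · refine prod_congr rfl fun x hx => ?_
    have := hb x hx
    linear_combination tc * this

/-- The sign `-1` on a set. -/
noncomputable def chi (S : Site → Prop) (x : Site) : ℝ :=
  open Classical in if S x then -1 else 1

theorem chi_sq (S : Site → Prop) (x : Site) : chi S x * chi S x = 1 := by
  unfold chi; split_ifs <;> norm_num

open Classical in
theorem tv_symmDiff {Λ T : Finset Site} (S : Site → Prop) {x : Site} (hx : x ∈ Λ) :
    tv (symmDiff T (Λ.filter S)) x = chi S x * tv T x := by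
  unfold tv chi
  by_cases h1 : x ∈ T <;> by_cases h2 : S x <;> simp [Finset.mem_symmDiff, h1, h2, hx]

open Classical in
/-- Gauge transformation. -/
theorem N2_gauge (Λ : Finset Site) (a b : Site → ℝ) (S : Site → Prop) {p q : Site}
    (hp : p ∈ Λ) (hq : q ∈ Λ) :
    N2 Λ a b p q = chi S p * chi S q * N2 Λ (fun x => a x * (chi S x * chi S (x.1 + 1, x.2)))
      (fun x => b x * (chi S x * chi S (x.1, x.2 + 1))) p q := by
  unfold N2
  rw [mul_sum]
  have key : ∑ T ∈ Λ.powerset, tv T p * tv T q * WW Λ a b (tv T) =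
      ∑ T ∈ Λ.powerset, tv (symmDiff T (Λ.filter S)) p * tv (symmDiff T (Λ.filter S)) q *
        WW Λ a b (tv (symmDiff T (Λ.filter S))) := by
    refine sum_nbij' (fun T => symmDiff T (Λ.filter S)) (fun T => symmDiff T (Λ.filter S))
      ?_ ?_ ?_ ?_ ?_
    · intro T hT
      rw [mem_powerset] at hT ⊢
      intro x hx
      rw [Finset.mem_symmDiff] at hx
      rcases hx with h | h
      · exact hT h.1
      · exact (mem_filter.1 h.1).1
    · intro T hT
      rw [mem_powerset] at hT ⊢
      intro x hx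
      rw [Finset.mem_symmDiff] at hx
      rcases hx with h | h
      · exact hT h.1
      · exact (mem_filter.1 h.1).1
    · intro T _
      simp
    · intro T _
      simp
    · intro T _
      simp
  rw [key]
  refine sum_congr rfl fun T _ => ?_
  rw [tv_symmDiff S hp, tv_symmDiff S hq]
  have : WW Λ a b (tv (symmDiff T (Λ.filter S))) =
      WW Λ (fun x => a x * (chi S x * chi S (x.1 + 1, x.2)))
      (fun x => b x * (chi S x * chi S (x.1, x.2 + 1))) (tv T) := by
    refine WW_congr (fun x hx => ?_) fun x hx => ?_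
    · rw [mem_hor] at hx
      rw [tv_symmDiff S hx.1, tv_symmDiff S hx.2]; ring
    · rw [mem_ver] at hx
      rw [tv_symmDiff S hx.1, tv_symmDiff S hx.2]; ring
  rw [this]; ring

/-- Reflection in the diagonal. -/
theorem N2_swap {Λ : Finset Site} (hΛ : ∀ x : Site, x ∈ Λ ↔ x.swap ∈ Λ) (a b : Site → ℝ)
    (p q : Site) :
    N2 Λ a b p q = N2 Λ (fun x => b x.swap) (fun x => a x.swap) p.swap q.swap := by
  unfold N2
  have tvs : ∀ (T : Finset Site) (x : Site), tv (T.image Prod.swap) x = tv T x.swap := by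
    intro T x
    unfold tv
    have : x ∈ T.image Prod.swap ↔ x.swap ∈ T := by
      rw [mem_image]
      constructor
      · rintro ⟨y, hy, rfl⟩; simpa using hy
      · intro h; exact ⟨x.swap, h, by simp⟩
    simp only [this]
  have him : ∀ T : Finset Site, (T.image Prod.swap).image Prod.swap = T := by
    intro T; rw [image_image]; simp
  refine sum_nbij' (fun T => T.image Prod.swap) (fun T => T.image Prod.swap) ?_ ?_ ?_ ?_ ?_
  · intro T hT
    rw [mem_powerset] at hT ⊢
    intro x hx
    rw [mem_image] at hx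
    obtain ⟨y, hy, rfl⟩ := hx
    exact (hΛ y).1 (hT hy)
  · intro T hT
    rw [mem_powerset] at hT ⊢
    intro x hx
    rw [mem_image] at hx
    obtain ⟨y, hy, rfl⟩ := hx
    exact (hΛ y).1 (hT hy)
  · intro T _; exact him T
  · intro T _; exact him T
  · intro T _
    rw [tvs, tvs]
    simp only [Prod.swap_swap]
    congr 1
    unfold WW
    rw [mul_comm]
    congr 1
    · refine prod_nbij' Prod.swap Prod.swap ?_ ?_ ?_ ?_ ?_
      · intro x hx
        rw [mem_ver] at hx; rw [mem_hor]
        exact ⟨(hΛ x).1 hx.1, (hΛ _).1 hx.2⟩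
      · intro x hx
        rw [mem_hor] at hx; rw [mem_ver]
        exact ⟨(hΛ x).1 hx.1, (hΛ _).1 hx.2⟩
      · intro x _; simp
      · intro x _; simp
      · intro x _
        rw [tvs, tvs]
        simp
    · refine prod_nbij' Prod.swap Prod.swap ?_ ?_ ?_ ?_ ?_
      · intro x hx
        rw [mem_hor] at hx; rw [mem_ver]
        exact ⟨(hΛ x).1 hx.1, (hΛ _).1 hx.2⟩
      · intro x hx
        rw [mem_ver] at hx; rw [mem_hor]
        exact ⟨(hΛ x).1 hx.1, (hΛ _).1 hx.2⟩
      · intro x _; simp
      · intro x _; simp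
      · intro x _
        rw [tvs, tvs]
        simp

/-- Point reflection. -/
theorem N2_neg {Λ : Finset Site} (hΛ : ∀ x : Site, x ∈ Λ ↔ -x ∈ Λ) (a b : Site → ℝ)
    (p q : Site) :
    N2 Λ a b p q = N2 Λ (fun x => a (-x.1 - 1, -x.2)) (fun x => b (-x.1, -x.2 - 1)) (-p) (-q) := by
  unfold N2
  have tvs : ∀ (T : Finset Site) (x : Site), tv (T.image Neg.neg) x = tv T (-x) := by
    intro T x
    unfold tv
    have : x ∈ T.image Neg.neg ↔ -x ∈ T := by
      rw [mem_image]
      constructor
      · rintro ⟨y, hy, rfl⟩; simpa using hy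
      · intro h; exact ⟨-x, h, by simp⟩
    simp only [this]
  have him : ∀ T : Finset Site, (T.image Neg.neg).image Neg.neg = T := by
    intro T; rw [image_image]; ext x; simp
  refine sum_nbij' (fun T => T.image Neg.neg) (fun T => T.image Neg.neg) ?_ ?_ ?_ ?_ ?_
  · intro T hT
    rw [mem_powerset] at hT ⊢
    intro x hx
    rw [mem_image] at hx
    obtain ⟨y, hy, rfl⟩ := hx
    exact (hΛ y).1 (hT hy)
  · intro T hT
    rw [mem_powerset] at hT ⊢
    intro x hx
    rw [mem_image] at hx
    obtain ⟨y, hy, rfl⟩ := hx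
    exact (hΛ y).1 (hT hy)
  · intro T _; exact him T
  · intro T _; exact him T
  · intro T _
    rw [tvs, tvs]
    simp only [neg_neg]
    congr 1
    unfold WW
    congr 1
    · have e0 : ∀ x : Site, ((-(-x.1 - 1) - 1, - -x.2) : Site) = x := by
        intro x; ext <;> simp
      have e1 : ∀ x : Site, ((-x.1 - 1 + 1, -x.2) : Site) = -x := by
        intro x; ext <;> simp
      have e2 : ∀ x : Site, -((x.1 + 1, x.2) : Site) = (-x.1 - 1, -x.2) := by
        intro x; ext <;> simp <;> ring
      have hm : ∀ x : Site, x ∈ hor Λ → ((-x.1 - 1, -x.2) : Site) ∈ hor Λ := by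
        intro x hx
        rw [mem_hor] at hx ⊢
        refine ⟨?_, ?_⟩
        · rw [← e2]; exact (hΛ _).1 hx.2
        · show ((-x.1 - 1 + 1, -x.2) : Site) ∈ Λ
          rw [e1]; exact (hΛ _).1 hx.1
      refine prod_nbij' (fun x => (-x.1 - 1, -x.2)) (fun x => (-x.1 - 1, -x.2)) hm hm ?_ ?_ ?_
      · intro x _; exact e0 x
      · intro x _; exact e0 x
      · intro x _
        rw [tvs, tvs]
        simp only
        rw [e0, e1, ← e2, neg_neg, neg_neg, mul_comm (tv T x)]
    · have e0 : ∀ x : Site, ((- -x.1, -(-x.2 - 1) - 1) : Site) = x := by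
        intro x; ext <;> simp
      have e1 : ∀ x : Site, ((-x.1, -x.2 - 1 + 1) : Site) = -x := by
        intro x; ext <;> simp
      have e2 : ∀ x : Site, -((x.1, x.2 + 1) : Site) = (-x.1, -x.2 - 1) := by
        intro x; ext <;> simp <;> ring
      have hm : ∀ x : Site, x ∈ ver Λ → ((-x.1, -x.2 - 1) : Site) ∈ ver Λ := by
        intro x hx
        rw [mem_ver] at hx ⊢
        refine ⟨?_, ?_⟩
        · rw [← e2]; exact (hΛ _).1 hx.2
        · show ((-x.1, -x.2 - 1 + 1) : Site) ∈ Λ
          rw [e1]; exact (hΛ _).1 hx.1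
      refine prod_nbij' (fun x => (-x.1, -x.2 - 1)) (fun x => (-x.1, -x.2 - 1)) hm hm ?_ ?_ ?_
      · intro x _; exact e0 x
      · intro x _; exact e0 x
      · intro x _
        rw [tvs, tvs]
        simp only
        rw [e0, e1, ← e2, neg_neg, neg_neg, mul_comm (tv T x)]

theorem flip_factor {x : ℝ} (hx : x = 1 ∨ x = -1) :
    1 + -1 * tc * x = (√2 - x) * (1 + 1 * tc * x) := by
  have h2 := sqrt2_sq
  unfold tc
  rcases hx with rfl | rfl
  · linear_combination -h2
  · linear_combination h2

theorem prod_pm {x y : ℝ} (hx : x = 1 ∨ x = -1) (hy : y = 1 ∨ y = -1) : x * y = 1 ∨ x * y = -1 := by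
  rcases hx with rfl | rfl <;> rcases hy with rfl | rfl <;> simp

open Classical in
theorem WW_flipH {Λ : Finset Site} {a b : Site → ℝ} {u : Site} (hu : u ∈ hor Λ) (ha : a u = 1)
    (T : Finset Site) :
    WW Λ (Function.update a u (-1)) b (tv T) =
      (√2 - tv T u * tv T (u.1 + 1, u.2)) * WW Λ a b (tv T) := by
  unfold WW
  rw [← mul_assoc]
  congr 1
  rw [← mul_prod_erase _ _ hu, ← mul_prod_erase _ _ hu]
  rw [Function.update_self, ha,
    flip_factor (prod_pm (tv_eq T u) (tv_eq T (u.1 + 1, u.2))), mul_assoc]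
  congr 2
  refine prod_congr rfl fun x hx => ?_
  rw [Function.update_of_ne (ne_of_mem_erase hx)]

open Classical in
theorem WW_flipV {Λ : Finset Site} {a b : Site → ℝ} {u : Site} (hu : u ∈ ver Λ) (hb : b u = 1)
    (T : Finset Site) :
    WW Λ a (Function.update b u (-1)) (tv T) =
      (√2 - tv T u * tv T (u.1, u.2 + 1)) * WW Λ a b (tv T) := by
  unfold WW
  rw [mul_left_comm]
  congr 1
  rw [← mul_prod_erase _ _ hu, ← mul_prod_erase _ _ hu]
  rw [Function.update_self, hb,
    flip_factor (prod_pm (tv_eq T u) (tv_eq T (u.1, u.2 + 1))), mul_assoc]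
  congr 2
  refine prod_congr rfl fun x hx => ?_
  rw [Function.update_of_ne (ne_of_mem_erase hx)]

open Classical in
theorem N2_flipH {Λ : Finset Site} {a b : Site → ℝ} {u : Site} (hu : u ∈ hor Λ) (ha : a u = 1)
    (q : Site) :
    N2 Λ (Function.update a u (-1)) b u q = √2 * N2 Λ a b u q - N2 Λ a b (u.1 + 1, u.2) q ∧
    N2 Λ (Function.update a u (-1)) b (u.1 + 1, u.2) q =
      √2 * N2 Λ a b (u.1 + 1, u.2) q - N2 Λ a b u q := by
  unfold N2
  constructor
  · rw [mul_sum, ← sum_sub_distrib]
    refine sum_congr rfl fun T _ => ?_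
    rw [WW_flipH hu ha]
    linear_combination (-tv T (u.1 + 1, u.2) * tv T q * WW Λ a b (tv T)) * tv_sq T u
  · rw [mul_sum, ← sum_sub_distrib]
    refine sum_congr rfl fun T _ => ?_
    rw [WW_flipH hu ha]
    linear_combination (-tv T u * tv T q * WW Λ a b (tv T)) * tv_sq T (u.1 + 1, u.2)

open Classical in
theorem N2_flipV {Λ : Finset Site} {a b : Site → ℝ} {u : Site} (hu : u ∈ ver Λ) (hb : b u = 1)
    (q : Site) :
    N2 Λ a (Function.update b u (-1)) u q = √2 * N2 Λ a b u q - N2 Λ a b (u.1, u.2 + 1) q ∧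
    N2 Λ a (Function.update b u (-1)) (u.1, u.2 + 1) q =
      √2 * N2 Λ a b (u.1, u.2 + 1) q - N2 Λ a b u q := by
  unfold N2
  constructor
  · rw [mul_sum, ← sum_sub_distrib]
    refine sum_congr rfl fun T _ => ?_
    rw [WW_flipV hu hb]
    linear_combination (-tv T (u.1, u.2 + 1) * tv T q * WW Λ a b (tv T)) * tv_sq T u
  · rw [mul_sum, ← sum_sub_distrib]
    refine sum_congr rfl fun T _ => ?_
    rw [WW_flipV hu hb]
    linear_combination (-tv T u * tv T q * WW Λ a b (tv T)) * tv_sq T (u.1, u.2 + 1)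

end Vale.Agent.P144
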