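import Vale.Agent.P144.U.Gauge

/-!
The two-point functions with two disorders of the free critical model in a box: bounds, relations
between neighbouring faces, reflection symmetry, end values.
-/

namespace Vale.Agent.P144

open Finset

section bound

theorem prod_mul_single (A : Finset Site) (T : Finset Site) (u : Site) :
    (∏ x ∈ A, tv T x) * tv T u = ∏ x ∈ symmDiff A {u}, tv T x := by
  by_cases hu : u ∈ A
  · have : symmDiff A {u} = A.erase u := by
      ext x
      simp only [Finset.mem_symmDiff, mem_singleton, mem_erase]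
      constructor
      · rintro (⟨h1, h2⟩ | ⟨h1, h2⟩)
        · exact ⟨h2, h1⟩
        · exact absurd (h1 ▸ hu) h2
      · rintro ⟨h1, h2⟩
        exact Or.inl ⟨h2, h1⟩
    rw [this, ← mul_prod_erase _ _ hu]
    linear_combination (∏ x ∈ A.erase u, tv T x) * tv_sq T u
  · have : symmDiff A {u} = insert u A := by
      ext x
      simp only [Finset.mem_symmDiff, mem_singleton, mem_insert]
      constructor
      · rintro (⟨h1, h2⟩ | ⟨h1, h2⟩)
        · exact Or.inr h1
        · exact Or.inl h1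
      · rintro (h | h)
        · subst h; exact Or.inr ⟨rfl, hu⟩
        · refine Or.inl ⟨h, ?_⟩
          rintro rfl; exact hu h
    rw [this, prod_insert hu, mul_comm]

theorem base_nonneg {Λ A : Finset Site} (hA : A ⊆ Λ) :
    0 ≤ ∑ T ∈ Λ.powerset, ∏ x ∈ A, tv T x := by
  rcases A.eq_empty_or_nonempty with rfl | ⟨u, hu⟩
  · simp
  · have key : ∑ T ∈ Λ.powerset, ∏ x ∈ A, tv T x =
        ∑ T ∈ Λ.powerset, - ∏ x ∈ A, tv T x := by
      refine sum_nbij' (fun T => symmDiff T {u}) (fun T => symmDiff T {u}) ?_ ?_ ?_ ?_ ?_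
      · intro T hT
        rw [mem_powerset] at hT ⊢
        intro x hx
        rw [Finset.mem_symmDiff] at hx
        rcases hx with h | h
        · exact hT h.1
        · rw [mem_singleton] at h; exact h.1 ▸ hA hu
      · intro T hT
        rw [mem_powerset] at hT ⊢
        intro x hx
        rw [Finset.mem_symmDiff] at hx
        rcases hx with h | h
        · exact hT h.1
        · rw [mem_singleton] at h; exact h.1 ▸ hA hu
      · intro T _; simp
      · intro T _; simp
      · intro T _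
        rw [← mul_prod_erase _ _ hu, ← mul_prod_erase _ _ hu, ← neg_mul]
        congr 1
        · unfold tv
          by_cases h : u ∈ T <;> simp [Finset.mem_symmDiff, h]
        · refine prod_congr rfl fun x hx => ?_
          unfold tv
          have : x ≠ u := ne_of_mem_erase hx
          by_cases h : x ∈ T <;> simp [Finset.mem_symmDiff, h, this]
    rw [sum_neg_distrib] at key
    linarith

theorem bound_aux {κ : Type*} (Λ : Finset Site) (I : Finset κ) (u v : κ → Site)
    (c C : κ → ℝ) (hI : ∀ e ∈ I, u e ∈ Λ ∧ v e ∈ Λ) (hc : ∀ e ∈ I, |c e| ≤ C e) :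
    ∀ A ⊆ Λ, |∑ T ∈ Λ.powerset, (∏ x ∈ A, tv T x) * ∏ e ∈ I, (1 + c e * (tv T (u e) * tv T (v e)))|
      ≤ ∑ T ∈ Λ.powerset, (∏ x ∈ A, tv T x) * ∏ e ∈ I, (1 + C e * (tv T (u e) * tv T (v e))) := by
  classical
  induction I using Finset.induction_on with
  | empty =>
    intro A hA
    simp only [prod_empty, mul_one]
    exact (abs_of_nonneg (base_nonneg hA)).le
  | insert e I he ih =>
    intro A hA
    have ih := ih (fun e h => hI e (mem_insert_of_mem h)) fun e h => hc e (mem_insert_of_mem h)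
    have hsub : symmDiff (symmDiff A {u e}) {v e} ⊆ Λ := by
      intro x hx
      have h1 := hI e (mem_insert_self _ _)
      rw [Finset.mem_symmDiff, Finset.mem_symmDiff, mem_singleton, mem_singleton] at hx
      rcases hx with ⟨(h | h), _⟩ | h
      · exact hA h.1
      · exact h.1 ▸ h1.1
      · exact h.1 ▸ h1.2
    have split : ∀ d : κ → ℝ, ∑ T ∈ Λ.powerset, (∏ x ∈ A, tv T x) *
        ∏ e ∈ insert e I, (1 + d e * (tv T (u e) * tv T (v e))) =
        (∑ T ∈ Λ.powerset, (∏ x ∈ A, tv T x) * ∏ e ∈ I, (1 + d e * (tv T (u e) * tv T (v e)))) +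
        d e * ∑ T ∈ Λ.powerset, (∏ x ∈ symmDiff (symmDiff A {u e}) {v e}, tv T x) *
          ∏ e ∈ I, (1 + d e * (tv T (u e) * tv T (v e))) := by
      intro d
      rw [mul_sum, ← sum_add_distrib]
      refine sum_congr rfl fun T _ => ?_
      rw [prod_insert he, ← prod_mul_single, ← prod_mul_single]
      ring
    rw [split, split]
    have hce := hc e (mem_insert_self _ _)
    have h1 := ih A hA
    have h2 := ih _ hsub
    refine (abs_add_le _ _).trans (add_le_add h1 ?_)
    rw [abs_mul]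
    exact mul_le_mul hce h2 (abs_nonneg _) ((abs_nonneg _).trans hce)

/-- The partition function. -/
noncomputable def ZZ (Λ : Finset Site) : ℝ := ∑ T ∈ Λ.powerset, WW Λ 1 1 (tv T)

theorem WW_one_pos (Λ T : Finset Site) : 0 < WW Λ 1 1 (tv T) := by
  unfold WW
  have h : ∀ x y : Site, 0 < 1 + (1:ℝ) * tc * (tv T x * tv T y) := by
    intro x y
    have h1 := tc_pos
    have h2 := tc_lt_one
    rcases prod_pm (tv_eq T x) (tv_eq T y) with h | h <;> rw [h] <;> linarith
  exact mul_pos (prod_pos fun x _ => h _ _) (prod_pos fun x _ => h _ _)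

theorem ZZ_pos (Λ : Finset Site) : 0 < ZZ Λ :=
  sum_pos (fun T _ => WW_one_pos Λ T) ⟨∅, by simp⟩

theorem N2_one_self (Λ : Finset Site) (p : Site) : N2 Λ 1 1 p p = ZZ Λ := by
  unfold N2 ZZ
  exact sum_congr rfl fun T _ => by rw [tv_sq, one_mul]

theorem N2_bound {Λ : Finset Site} {a b : Site → ℝ} (ha : ∀ x, |a x| ≤ 1) (hb : ∀ x, |b x| ≤ 1)
    {p q : Site} (hp : p ∈ Λ) (hq : q ∈ Λ) : |N2 Λ a b p q| ≤ ZZ Λ := by
  classical
  set I : Finset (Site ⊕ Site) := (hor Λ).disjSum (ver Λ) with hI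
  set u : Site ⊕ Site → Site := Sum.elim id id with hu
  set v : Site ⊕ Site → Site := Sum.elim (fun x => (x.1 + 1, x.2)) fun x => (x.1, x.2 + 1) with hv
  set A : Finset Site := symmDiff (symmDiff ∅ {p}) {q} with hA
  have hAΛ : A ⊆ Λ := by
    intro x hx
    rw [hA, Finset.mem_symmDiff, Finset.mem_symmDiff, mem_singleton, mem_singleton] at hx
    rcases hx with ⟨(h | h), _⟩ | h
    · simp at h
    · exact h.1 ▸ hp
    · exact h.1 ▸ hq
  have hprod : ∀ T : Finset Site, tv T p * tv T q = ∏ x ∈ A, tv T x := by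
    intro T
    rw [hA, ← prod_mul_single, ← prod_mul_single]; simp
  have hW : ∀ (a b : Site → ℝ) (T : Finset Site), WW Λ a b (tv T) =
      ∏ e ∈ I, (1 + (Sum.elim a b e * tc) * (tv T (u e) * tv T (v e))) := by
    intro a b T
    rw [hI, prod_disjSum]
    unfold WW
    simp [hu, hv]
  have h := bound_aux Λ I u v (fun e => Sum.elim a b e * tc) (fun e => Sum.elim (1 : Site → ℝ) (1 : Site → ℝ) e * tc)
    (by
      intro e he
      rw [hI, mem_disjSum] at he
      rcases he with ⟨x, hx, rfl⟩ | ⟨x, hx, rfl⟩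
      · simpa [hu, hv] using mem_hor.1 hx
      · simpa [hu, hv] using mem_ver.1 hx)
    (by
      intro e _
      rw [abs_mul, abs_of_pos tc_pos]
      refine mul_le_mul_of_nonneg_right ?_ tc_pos.le
      rcases e with x | x
      · simpa using ha x
      · simpa using hb x) A hAΛ
  have e1 : N2 Λ a b p q = ∑ T ∈ Λ.powerset, (∏ x ∈ A, tv T x) *
      ∏ e ∈ I, (1 + (Sum.elim a b e * tc) * (tv T (u e) * tv T (v e))) := by
    unfold N2
    exact sum_congr rfl fun T _ => by rw [hprod, hW]
  rw [← e1] at h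
  refine h.trans ?_
  unfold ZZ
  refine sum_le_sum fun T _ => ?_
  rw [hW 1 1 T, ← hprod T]
  have hpos := WW_one_pos Λ T
  rw [hW 1 1 T] at hpos
  rcases prod_pm (tv_eq T p) (tv_eq T q) with h | h <;> rw [h]
  · rw [one_mul]
  · linarith

end bound

/-- The signs of the two disorder lines: from the face `(i, j)` upwards and from the face `(n, n)`
downwards. -/
noncomputable def aq (n i j : ℤ) (x : Site) : ℝ :=
  (if x.1 = i ∧ j < x.2 then -1 else 1) * (if x.1 = n ∧ x.2 ≤ n then -1 else 1)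

theorem aq_abs (n i j : ℤ) (x : Site) : |aq n i j x| ≤ 1 := by
  unfold aq; split_ifs <;> norm_num

/-- Normalised two-point function with disorders at the faces `(i, j)` and `(n, n)`. -/
noncomputable def XX (M : ℕ) (n i j : ℤ) (p q : Site) : ℝ :=
  N2 (box M) (aq n i j) 1 p q / ZZ (box M)

/-- The plain two-point function. -/
noncomputable def SS (M : ℕ) (m n : ℤ) : ℝ := N2 (box M) 1 1 (m, m) (n, n) / ZZ (box M)

/-- The disorder correlation of the faces `(m, m)` and `(n, n)`. -/
noncomputable def MU (M : ℕ) (m n : ℤ) : ℝ := XX M n m m (0, 0) (0, 0)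

theorem mem_box {M : ℕ} {x : Site} :
    x ∈ box M ↔ (-(M:ℤ) ≤ x.1 ∧ x.1 ≤ M) ∧ (-(M:ℤ) ≤ x.2 ∧ x.2 ≤ M) := by
  unfold box; rw [mem_product, mem_Icc, mem_Icc]

theorem XX_bound {M : ℕ} {n i j : ℤ} {p q : Site} (hp : p ∈ box M) (hq : q ∈ box M) :
    |XX M n i j p q| ≤ 1 := by
  unfold XX
  rw [abs_div, abs_of_pos (ZZ_pos _), div_le_one (ZZ_pos _)]
  exact N2_bound (aq_abs n i j) (by simp) hp hq

theorem SS_bound {M : ℕ} {m n : ℤ} (hp : ((m, m) : Site) ∈ box M) (hq : ((n, n) : Site) ∈ box M) :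
    |SS M m n| ≤ 1 := by
  unfold SS
  rw [abs_div, abs_of_pos (ZZ_pos _), div_le_one (ZZ_pos _)]
  exact N2_bound (by simp) (by simp) hp hq

theorem XX_self (M : ℕ) (n i j : ℤ) (p q : Site) : XX M n i j p p = XX M n i j q q := by
  unfold XX; rw [N2_self _ _ _ p q]

theorem XX_self' (M : ℕ) (m n : ℤ) (p : Site) : XX M n m m p p = MU M m n := XX_self _ _ _ _ _ _

open Classical in
theorem aq_V {n i j : ℤ} (hij : i ≤ j) :
    aq n i j = Function.update (aq n i (j + 1)) (i, j + 1) (-1) ∧ aq n i (j + 1) (i, j + 1) = 1 := by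
  constructor
  · funext x
    by_cases hx : x = (i, j + 1)
    · subst hx
      rw [Function.update_self]
      unfold aq
      split_ifs <;> first | (exfalso; lia) | norm_num
    · rw [Function.update_of_ne hx]
      have hx' : ¬ (x.1 = i ∧ x.2 = j + 1) := fun h => hx (Prod.ext h.1 h.2)
      unfold aq
      split_ifs <;> first | (exfalso; lia) | norm_num
  · unfold aq
    split_ifs <;> first | (exfalso; lia) | norm_num

/-- Moving the disorder vertically. -/
theorem XX_V {M : ℕ} {n i j : ℤ} (hij : i ≤ j) (h1 : ((i, j + 1) : Site) ∈ box M)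
    (h2 : ((i + 1, j + 1) : Site) ∈ box M) (q : Site) :
    XX M n i j (i, j + 1) q =
      √2 * XX M n i (j + 1) (i, j + 1) q - XX M n i (j + 1) (i + 1, j + 1) q ∧
    XX M n i j (i + 1, j + 1) q =
      √2 * XX M n i (j + 1) (i + 1, j + 1) q - XX M n i (j + 1) (i, j + 1) q := by
  obtain ⟨e1, e2⟩ := aq_V (n := n) hij
  have h := N2_flipH (Λ := box M) (a := aq n i (j + 1)) (b := 1) (u := (i, j + 1))
    (mem_hor.2 ⟨h1, h2⟩) e2 q
  rw [← e1] at h
  unfold XX
  constructor
  · rw [h.1]; ring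
  · rw [h.2]; ring

open Classical in
theorem aq_H (n i j : ℤ) :
    (fun x : Site => aq n i j x * (chi (fun x => x.1 = i + 1 ∧ j < x.2) x *
      chi (fun x => x.1 = i + 1 ∧ j < x.2) (x.1 + 1, x.2))) = aq n (i + 1) j ∧
    (fun x : Site => (1 : Site → ℝ) x * (chi (fun x => x.1 = i + 1 ∧ j < x.2) x *
      chi (fun x => x.1 = i + 1 ∧ j < x.2) (x.1, x.2 + 1))) =
      Function.update (1 : Site → ℝ) (i + 1, j) (-1) := by
  constructor
  · funext x
    unfold aq chi
    split_ifs <;> first | (exfalso; lia) | norm_num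
  · funext x
    by_cases hx : x = (i + 1, j)
    · subst hx
      rw [Function.update_self]
      unfold chi
      simp only [Pi.one_apply]
      split_ifs <;> first | (exfalso; lia) | norm_num
    · rw [Function.update_of_ne hx]
      have hx' : ¬ (x.1 = i + 1 ∧ x.2 = j) := fun h => hx (Prod.ext h.1 h.2)
      unfold chi
      simp only [Pi.one_apply]
      split_ifs <;> first | (exfalso; lia) | norm_num

open Classical in
/-- Moving the disorder horizontally; the other spin must not be swept over. -/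
theorem XX_H {M : ℕ} {n i j : ℤ} (h1 : ((i + 1, j) : Site) ∈ box M)
    (h2 : ((i + 1, j + 1) : Site) ∈ box M) {q : Site} (hq : q ∈ box M)
    (hqS : ¬ (q.1 = i + 1 ∧ j < q.2)) :
    XX M n i j (i + 1, j) q =
      √2 * XX M n (i + 1) j (i + 1, j) q - XX M n (i + 1) j (i + 1, j + 1) q ∧
    XX M n i j (i + 1, j + 1) q =
      XX M n (i + 1) j (i + 1, j) q - √2 * XX M n (i + 1) j (i + 1, j + 1) q := by
  obtain ⟨e1, e2⟩ := aq_H n i j
  have g : ∀ p ∈ box M, N2 (box M) (aq n i j) 1 p q =
      chi (fun x => x.1 = i + 1 ∧ j < x.2) p *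
        N2 (box M) (aq n (i + 1) j) (Function.update (1 : Site → ℝ) (i + 1, j) (-1)) p q := by
    intro p hp
    rw [N2_gauge (box M) (aq n i j) 1 (fun x => x.1 = i + 1 ∧ j < x.2) hp hq, e1, e2]
    have : chi (fun x => x.1 = i + 1 ∧ j < x.2) q = 1 := by
      unfold chi; rw [if_neg hqS]
    rw [this, mul_one]
  have f := N2_flipV (Λ := box M) (a := aq n (i + 1) j) (b := 1) (u := (i + 1, j))
    (mem_ver.2 ⟨h1, h2⟩) rfl q
  have c1 : chi (fun x => x.1 = i + 1 ∧ j < x.2) (i + 1, j) = 1 := by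
    unfold chi; rw [if_neg (by simp)]
  have c2 : chi (fun x => x.1 = i + 1 ∧ j < x.2) (i + 1, j + 1) = -1 := by
    unfold chi; rw [if_pos ⟨rfl, by simp⟩]
  unfold XX
  constructor
  · rw [g _ h1, c1, f.1]; ring
  · rw [g _ h2, c2, f.2]; ring

/-- Reflection in the diagonal, with the gauge transformation that restores the disorder lines. -/
theorem XX_refl {M : ℕ} {n k m : ℤ} {p : ℤ} (hp : ((p, p) : Site) ∈ box M)
    (hm : ((m, m) : Site) ∈ box M) :
    XX M n k k (p, p) (m, m) =
      ((if k < p then -1 else 1) * (if p ≤ n then -1 else 1)) *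
      ((if k < m then -1 else 1) * (if m ≤ n then -1 else 1)) * XX M n k k (p, p) (m, m) := by
  classical
  set S : Site → Prop := fun x => (k < x.1 ∧ k < x.2) ↔ ¬ (x.1 ≤ n ∧ x.2 ≤ n) with hS
  have hchi : ∀ x : Site, chi S x =
      (if k < x.1 ∧ k < x.2 then -1 else 1) * (if x.1 ≤ n ∧ x.2 ≤ n then -1 else 1) := by
    intro x
    unfold chi
    by_cases h1 : k < x.1 ∧ k < x.2 <;> by_cases h2 : x.1 ≤ n ∧ x.2 ≤ n <;> simp [hS, h1, h2]
  have hbox : ∀ x : Site, x ∈ box M ↔ x.swap ∈ box M := by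
    intro x
    rw [mem_box, mem_box]
    simp only [Prod.fst_swap, Prod.snd_swap]
    exact and_comm
  have e : N2 (box M) (aq n k k) 1 (p, p) (m, m) =
      chi S (p, p) * chi S (m, m) * N2 (box M) (aq n k k) 1 (p, p) (m, m) := by
    conv_lhs => rw [N2_swap hbox, N2_gauge (box M) _ _ S (p := (p, p).swap) (q := (m, m).swap)
      ((hbox _).1 hp) ((hbox _).1 hm)]
    simp only [Prod.swap_prod_mk]
    congr 2
    · funext x
      rw [hchi, hchi]
      unfold aq
      simp only [Pi.one_apply]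
      split_ifs <;> first | (exfalso; lia) | norm_num
    · funext x
      rw [hchi, hchi]
      unfold aq
      simp only [Prod.fst_swap, Prod.snd_swap, Pi.one_apply]
      split_ifs <;> first | (exfalso; lia) | norm_num
  unfold XX
  rw [← mul_div_assoc]
  congr 1
  rw [hchi, hchi] at e
  simpa using e

theorem XX_refl_A {M : ℕ} {n k m : ℤ} (hmn : m ≤ n) (hk : k < m ∨ n < k)
    (hkM : ((k, k) : Site) ∈ box M) (hmM : ((m, m) : Site) ∈ box M) :
    XX M n k k (k, k) (m, m) = 0 := by
  have h := XX_refl (n := n) (k := k) hkM hmM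
  rcases hk with hk | hk
  · rw [if_neg (lt_irrefl k), if_pos (show k ≤ n by lia), if_pos hk, if_pos hmn] at h
    linarith
  · rw [if_neg (lt_irrefl k), if_neg (show ¬ k ≤ n by lia), if_neg (show ¬ k < m by lia),
      if_pos hmn] at h
    linarith

theorem XX_refl_D {M : ℕ} {n k m : ℤ} (hmk : m ≤ k) (hk : k < n)
    (hkM : ((k + 1, k + 1) : Site) ∈ box M) (hmM : ((m, m) : Site) ∈ box M) :
    XX M n k k (k + 1, k + 1) (m, m) = 0 := by
  have h := XX_refl (n := n) (k := k) hkM hmM
  rw [if_pos (show k < k + 1 by lia), if_pos (show k + 1 ≤ n by lia),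
    if_neg (show ¬ k < m by lia), if_pos (show m ≤ n by lia)] at h
  linarith

/-- When the two disorders coincide they disappear, up to a sign on `x ≤ n`. -/
theorem XX_n {M : ℕ} {n : ℤ} {p q : Site} (hp : p ∈ box M) (hq : q ∈ box M) :
    XX M n n n p q = (if p.1 ≤ n then -1 else 1) * (if q.1 ≤ n then -1 else 1) *
      (N2 (box M) 1 1 p q / ZZ (box M)) := by
  classical
  unfold XX
  rw [N2_gauge (box M) (aq n n n) 1 (fun x => x.1 ≤ n) hp hq]
  have e1 : (fun x : Site => aq n n n x * (chi (fun x => x.1 ≤ n) x *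
      chi (fun x => x.1 ≤ n) (x.1 + 1, x.2))) = 1 := by
    funext x
    unfold aq chi
    simp only [Pi.one_apply]
    split_ifs <;> first | (exfalso; lia) | norm_num
  have e2 : (fun x : Site => (1 : Site → ℝ) x * (chi (fun x => x.1 ≤ n) x *
      chi (fun x => x.1 ≤ n) (x.1, x.2 + 1))) = 1 := by
    funext x
    have : chi (fun x : Site => x.1 ≤ n) (x.1, x.2 + 1) = chi (fun x : Site => x.1 ≤ n) x := rfl
    rw [this, chi_sq]
    simp
  rw [e1, e2]
  unfold chi
  ring_nf

theorem SS_symm (M : ℕ) (m n : ℤ) : SS M m n = SS M (-n) (-m) := by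
  have hbox : ∀ x : Site, x ∈ box M ↔ -x ∈ box M := by
    intro x
    rw [mem_box, mem_box]
    simp only [Prod.fst_neg, Prod.snd_neg]
    lia
  unfold SS
  rw [N2_neg hbox, N2_comm]
  rfl

theorem MU_symm (M : ℕ) (m n : ℤ) : MU M m n = MU M (-n - 1) (-m - 1) := by
  have hbox : ∀ x : Site, x ∈ box M ↔ -x ∈ box M := by
    intro x
    rw [mem_box, mem_box]
    simp only [Prod.fst_neg, Prod.snd_neg]
    lia
  unfold MU XX
  rw [N2_neg hbox]
  congr 1
  have : (fun x : Site => aq n m m (-x.1 - 1, -x.2)) = aq (-m - 1) (-n - 1) (-n - 1) := by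
    funext x
    unfold aq
    split_ifs <;> first | (exfalso; lia) | norm_num
  rw [this]
  exact N2_self _ _ _ _ _

end Vale.Agent.P144
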