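import Vale.Agent.P144.Defs

/-!
The square, the alternating boundary condition, and Q1 with the domain part read separately for
each number of spins and energies.
-/

namespace Vale.Agent.P144

open Filter Topology MeasureTheory

/-- The open square `|x| + |y| < 1`. -/
def Dia : Set ℂ := {z | |z.re| + |z.im| < 1}

/-- The configuration that alternates on the layer `|x| + |y| = N + 1`, on each side going
counterclockwise and beginning with `+` next to the tips `(±(N+1), 0)`, `(0, ±(N+1))`, and that is
`+` elsewhere, in particular on the tips. -/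
def alt (N : ℕ) : Config := fun x =>
  if |x.1| + |x.2| = N + 1 then
    if 0 < x.1 ∧ 0 < x.2 then decide (Odd x.2)
    else if x.1 < 0 ∧ 0 < x.2 then decide (Odd x.1)
    else if x.1 < 0 ∧ x.2 < 0 then decide (Odd x.2)
    else if 0 < x.1 ∧ x.2 < 0 then decide (Odd x.1)
    else true
  else true

/-- The alternating boundary condition of `Dia` at mesh `a`: the sites of `Dia` are those with
`|x| + |y| ≤ N`, `N = ⌈1/a⌉ - 1`, and the first layer outside is alternating. -/
noncomputable def altb (a : ℝ) : Config := alt (⌈1 / a⌉₊ - 1)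

/-- The scaling limits of all correlations of `n` spins and `m` energies in directions `j` exist in
`D`. -/
def NLim (D : Set ℂ) (E : Fam) (n m : ℕ) (j : Fin m → Fin 2) : Prop :=
  ∀ x y, Good D ⟨n, m, x, y, j⟩ → ∃ c, Lim E ⟨n, m, x, y, j⟩ c

/-- The correlations of `n` spins and `m` energies in directions `j` have the scaling limits of
those of `E₀`, up to the two constants. -/
def NIdentity (D : Set ℂ) (E₀ E : Fam) (Zσ Zε : ℝ) (n m : ℕ) (j : Fin m → Fin 2) : Prop :=
  ∀ x y, Good D ⟨n, m, x, y, j⟩ → ∀ c, Lim E₀ ⟨n, m, x, y, j⟩ c →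
    Lim E ⟨n, m, x, y, j⟩ (Zσ ^ n * Zε ^ m * c)

/-- The data asked for in Q1, where the identity in a domain is required for every `n`, `m` and
directions for which the limits of the critical nearest-neighbour model exist, as a function of
the points, in this domain. -/
def HasDataNM (J : ℝ) (V : Finset Site → ℝ) (lam : ℝ) : Prop :=
  ∃ β > 0, ∃ Zσ ≠ 0, ∃ Zε ≠ 0,
    (∃ E, PlaneFam J lam V β E ∧
      ∀ E₀, PlaneFam J 0 (fun _ => 0) (Kc / J) E₀ → Identity Set.univ E₀ E Zσ Zε) ∧
    ∀ D : Set ℂ, IsOpen D → IsConnected D → Bornology.IsBounded D →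
      ∀ b n m j, NLim D (crit J D b) n m j →
        NIdentity D (crit J D b) (inDom J lam V β D b) Zσ Zε n m j

/-- Q1 in this reading. -/
def Q1nm : Prop :=
  ∀ J > 0, ∀ V, IsPotential V → ∃ lam₀ > 0, ∀ lam : ℝ, |lam| < lam₀ → HasDataNM J V lam

end Vale.Agent.P144
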