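import Vale.Agent.P144.Bdl.B1
import Vale.Agent.P144.U.Stmt
import Mathlib.Analysis.Real.Pi.Wallis

/-!
Definitions shared by the blocks of the unconditional disproof (route U0).
-/

namespace Vale.Agent.P144

open Filter Topology MeasureTheory

/-- The sites of `Dia` at mesh `a` are `dia N` with `N = ⌈1/a⌉₊ - 1`. -/
noncomputable def dia (N : ℕ) : Finset Site :=
  (Finset.Icc (-(N : ℤ)) N ×ˢ Finset.Icc (-(N : ℤ)) N).filter fun x => |x.1| + |x.2| ≤ N

/-- The boxes `[-M, M]²`. -/
noncomputable def box (M : ℕ) : Finset Site :=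
  Finset.Icc (-(M : ℤ)) M ×ˢ Finset.Icc (-(M : ℤ)) M

/-- The free critical nearest-neighbour correlation of the spins of `A` in `Λ`. -/
noncomputable def fcor (J : ℝ) (Λ A : Finset Site) : ℝ :=
  gibbs J 0 (fun _ => 0) (Kc / J) none Λ fun σ => ∏ x ∈ A, sp (σ x)

/-- The critical diagonal two-point function of the plane: `Dg 0 = 1`,
`Dg (n + 1) = Dg n * (2 / π) * W n` with Wallis' product `W`. -/
noncomputable def Dg (n : ℕ) : ℝ := ∏ k ∈ Finset.range n, 2 / Real.pi * Real.Wallis.W k

end Vale.Agent.P144
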